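import Vale.Agent.P046.Full.Defs

/-!
Exactness of the tree recursion on tree balls, and independence of distant roots.
-/

namespace Vale.Agent.P046.Full

open Finset

noncomputable section

variable {α : Type*} [DecidableEq α]

/-- Extension of a priority assignment on `E` to all hyperedges. -/
def ext' (E : Finset (Finset α)) (M : ℕ) (p : ∀ R ∈ E, ℕ) : Finset α → ℕ :=
  fun R => if h : R ∈ E then p R h else M

/-- `F` only looks at the priorities in `S`. -/
def Dep (S : Finset (Finset α)) (F : (Finset α → ℕ) → ℝ) : Prop :=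
  ∀ w w' : Finset α → ℕ, (∀ R ∈ S, w R = w' R) → F w = F w'

variable {E : Finset (Finset α)} {M : ℕ}

lemma avgOrders_def (E : Finset (Finset α)) (M : ℕ) (φ : (Finset α → ℕ) → ℝ) :
    avgOrders E M φ
      = (∑ p ∈ E.pi fun _ => range M, φ (ext' E M p)) / (M : ℝ) ^ E.card := rfl

lemma card_pi_range (E : Finset (Finset α)) (M : ℕ) :
    ((E.pi fun _ => range M).card : ℝ) = (M : ℝ) ^ E.card := by
  simp [card_pi]

lemma avg_congr {F G : (Finset α → ℕ) → ℝ} (h : ∀ w, F w = G w) :
    avgOrders E M F = avgOrders E M G := by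
  rw [show F = G from funext h]

lemma avg_mono {F G : (Finset α → ℕ) → ℝ} (h : ∀ w, F w ≤ G w) :
    avgOrders E M F ≤ avgOrders E M G := by
  simp only [avgOrders_def]
  exact div_le_div_of_nonneg_right (sum_le_sum fun p _ => h _) (by positivity)

lemma avg_const (hM : 0 < M) (c : ℝ) : avgOrders E M (fun _ => c) = c := by
  have : (M : ℝ) ^ E.card ≠ 0 := pow_ne_zero _ (by exact_mod_cast hM.ne')
  rw [avgOrders_def, sum_const, nsmul_eq_mul, card_pi_range, mul_comm, mul_div_assoc,
    div_self this, mul_one]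

lemma avg_sum {ι : Type*} (s : Finset ι) (F : ι → (Finset α → ℕ) → ℝ) :
    avgOrders E M (fun w => ∑ i ∈ s, F i w) = ∑ i ∈ s, avgOrders E M (F i) := by
  simp only [avgOrders_def]
  rw [sum_comm, sum_div]

lemma avg_sub (F G : (Finset α → ℕ) → ℝ) :
    avgOrders E M (fun w => F w - G w) = avgOrders E M F - avgOrders E M G := by
  simp only [avgOrders_def]
  rw [sum_sub_distrib, sub_div]

omit [DecidableEq α] in
lemma Dep.mono {S T : Finset (Finset α)} {F : (Finset α → ℕ) → ℝ} (h : Dep S F) (hST : S ⊆ T) :
    Dep T F :=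
  fun w w' hw => h w w' fun R hR => hw R (hST hR)

/-- Functions of disjoint sets of priorities are independent. -/
lemma avg_mul {S T : Finset (Finset α)} {F G : (Finset α → ℕ) → ℝ} (hF : Dep S F) (hG : Dep T G)
    (hST : Disjoint S T) (hM : 0 < M) :
    avgOrders E M (fun w => F w * G w) = avgOrders E M F * avgOrders E M G := by
  have hne : (M : ℝ) ^ E.card ≠ 0 := pow_ne_zero _ (by exact_mod_cast hM.ne')
  have key : ∑ x ∈ (E.pi fun _ => range M) ×ˢ (E.pi fun _ => range M),
        F (ext' E M x.1) * G (ext' E M x.1)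
      = ∑ x ∈ (E.pi fun _ => range M) ×ˢ (E.pi fun _ => range M),
        F (ext' E M x.1) * G (ext' E M x.2) := by
    let sw : (∀ R ∈ E, ℕ) × (∀ R ∈ E, ℕ) → (∀ R ∈ E, ℕ) × (∀ R ∈ E, ℕ) := fun x =>
      (fun R h => if R ∈ S then x.1 R h else x.2 R h,
        fun R h => if R ∈ S then x.2 R h else x.1 R h)
    have hmem : ∀ x ∈ (E.pi fun _ => range M) ×ˢ (E.pi fun _ => range M),
        sw x ∈ (E.pi fun _ => range M) ×ˢ (E.pi fun _ => range M) := by
      intro x hx
      obtain ⟨h1, h2⟩ := mem_product.1 hx
      rw [mem_pi] at h1 h2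
      refine mem_product.2 ⟨mem_pi.2 fun R h => ?_, mem_pi.2 fun R h => ?_⟩ <;>
        by_cases hR : R ∈ S <;> simp [sw, hR, mem_range.1 (h1 R h), mem_range.1 (h2 R h)]
    have hinv : ∀ x, sw (sw x) = x := by
      intro x
      ext R h <;> by_cases hR : R ∈ S <;> simp [sw, hR]
    refine sum_nbij' sw sw hmem hmem (fun x _ => hinv x) (fun x _ => hinv x) ?_
    intro x _
    congr 1
    · refine hF _ _ fun R hR => ?_
      simp only [ext']
      split_ifs with h <;> simp [sw, hR]
    · refine hG _ _ fun R hR => ?_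
      have hRS : R ∉ S := fun h => disjoint_left.1 hST h hR
      simp only [ext']
      split_ifs with h <;> simp [sw, hRS]
  rw [sum_product, sum_product] at key
  simp only [sum_const, nsmul_eq_mul, card_pi_range, ← mul_sum, ← sum_mul] at key
  simp only [avgOrders_def]
  rw [div_mul_div_comm, div_eq_div_iff hne (mul_ne_zero hne hne), ← key]
  ring

lemma dep_prod {ι : Type*} (s : Finset ι) (S : ι → Finset (Finset α))
    (F : ι → (Finset α → ℕ) → ℝ) (hF : ∀ i ∈ s, Dep (S i) (F i)) :
    Dep (s.biUnion S) (fun w => ∏ i ∈ s, F i w) :=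
  fun w w' hw => prod_congr rfl fun i hi =>
    hF i hi w w' fun R hR => hw R (mem_biUnion.2 ⟨i, hi, hR⟩)

/-- Products over pairwise disjoint supports factorise. -/
lemma avg_prod {ι : Type*} (s : Finset ι) (S : ι → Finset (Finset α))
    (F : ι → (Finset α → ℕ) → ℝ) (hF : ∀ i ∈ s, Dep (S i) (F i))
    (hd : ∀ i ∈ s, ∀ k ∈ s, i ≠ k → Disjoint (S i) (S k)) (hM : 0 < M) :
    avgOrders E M (fun w => ∏ i ∈ s, F i w) = ∏ i ∈ s, avgOrders E M (F i) := by
  classical
  induction s using Finset.induction_on with
  | empty => simpa using avg_const (E := E) hM (1 : ℝ)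
  | @insert a s ha ih =>
    simp only [prod_insert ha]
    rw [avg_mul (hF a (mem_insert_self a s))
      (dep_prod s S F fun i hi => hF i (mem_insert_of_mem hi)) ?_ hM,
      ih (fun i hi => hF i (mem_insert_of_mem hi))
        (fun i hi k hk => hd i (mem_insert_of_mem hi) k (mem_insert_of_mem hk))]
    refine (disjoint_biUnion_right _ _ _).2 fun i hi => ?_
    exact hd a (mem_insert_self a s) i (mem_insert_of_mem hi) fun h => ha (h ▸ hi)

/-- A single priority is uniform. -/
lemma avg_single {R : Finset α} (hR : R ∈ E) {l : ℕ} (hl : l < M) :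
    avgOrders E M (fun w => if w R = l then (1 : ℝ) else 0) = 1 / M := by
  have hM : (M : ℝ) ≠ 0 := by
    have : 0 < M := by omega
    exact_mod_cast this.ne'
  rw [avgOrders_def, sum_boole]
  have hset : ((E.pi fun _ => range M).filter fun p => ext' E M p R = l)
      = E.pi fun S => if S = R then {l} else range M := by
    ext p
    simp only [mem_filter, mem_pi, ext', dif_pos hR]
    constructor
    · rintro ⟨h1, h2⟩ S hS
      by_cases hSR : S = R
      · subst hSR; simp [h2]
      · simpa [hSR] using h1 S hS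
    · intro h
      have h0 := h R hR
      rw [if_pos rfl, mem_singleton] at h0
      refine ⟨fun S hS => ?_, h0⟩
      by_cases hSR : S = R
      · subst hSR; rw [h0]; exact mem_range.2 hl
      · simpa [hSR] using h S hS
  rw [hset, card_pi, ← mul_prod_erase E _ hR,
    prod_congr rfl (g := fun _ => M) fun S hS => ?_]
  · simp only [if_pos, card_singleton, one_mul, prod_const, Nat.cast_pow,
      card_erase_of_mem hR]
    obtain ⟨c, hc⟩ : ∃ c, E.card = c + 1 :=
      ⟨E.card - 1, by have := card_pos.2 ⟨R, hR⟩; omega⟩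
    rw [hc, Nat.add_sub_cancel, pow_succ]
    field_simp
  · rw [if_neg (mem_erase.1 hS).1, card_range]

/-- The evaluation entered from the hyperedge `X`, which is ignored. -/
def aliveX (E : Finset (Finset α)) (w : Finset α → ℕ) (base : Bool) :
    ℕ → Finset α → α → ℕ → Bool
  | 0, _, _, _ => base
  | j + 1, X, e, i => decide (∀ R ∈ (E.erase X).filter (fun R => e ∈ R), w R < i →
      ∃ f ∈ R.erase e, aliveX E w base j R f (w R) = false)

lemma aliveIt_eq_aliveX (w : Finset α → ℕ) (base : Bool) :
    ∀ (j : ℕ) (X : Finset α) (e : α) (i : ℕ), (X ∈ E → e ∈ X → i ≤ w X) →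
      aliveIt E w base j e i = aliveX E w base j X e i := by
  intro j
  induction j with
  | zero => intros; rfl
  | succ j ih =>
    intro X e i hX
    simp only [aliveIt, aliveX, decide_eq_decide]
    constructor
    · intro h R hR hRi
      obtain ⟨h1, h2⟩ := mem_filter.1 hR
      obtain ⟨f, hf, hf'⟩ := h R (mem_erase.1 h1).2 h2 hRi
      exact ⟨f, hf, by rwa [ih R f (w R) fun _ _ => le_rfl] at hf'⟩
    · intro h R hR he hRi
      have hne : R ≠ X := by rintro rfl; exact absurd (hX hR he) (by omega)
      obtain ⟨f, hf, hf'⟩ := h R (mem_filter.2 ⟨mem_erase.2 ⟨hne, hR⟩, he⟩) hRi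
      exact ⟨f, hf, by rwa [ih R f (w R) fun _ _ => le_rfl]⟩

/-- Indicator of `aliveX`. -/
def ax (E : Finset (Finset α)) (base : Bool) (j : ℕ) (X : Finset α) (e : α) (i : ℕ)
    (w : Finset α → ℕ) : ℝ :=
  if aliveX E w base j X e i = true then 1 else 0

lemma ax_nonneg (base : Bool) (j : ℕ) (X : Finset α) (e : α) (i : ℕ) (w : Finset α → ℕ) :
    0 ≤ ax E base j X e i w ∧ ax E base j X e i w ≤ 1 := by
  unfold ax; split_ifs <;> norm_num

lemma ax_succ (base : Bool) (j : ℕ) (X : Finset α) (e : α) (i : ℕ) (w : Finset α → ℕ) :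
    ax E base (j + 1) X e i w = ∏ R ∈ (E.erase X).filter (fun R => e ∈ R),
      (1 - ∑ l ∈ range i,
        (if w R = l then (1 : ℝ) else 0) * ∏ f ∈ R.erase e, ax E base j R f l w) := by
  have hb : ∀ R : Finset α, (1 - ∑ l ∈ range i,
      (if w R = l then (1 : ℝ) else 0) * ∏ f ∈ R.erase e, ax E base j R f l w)
      = if (w R < i → ∃ f ∈ R.erase e, aliveX E w base j R f (w R) = false) then 1 else 0 := by
    intro R
    simp only [ite_mul, one_mul, zero_mul, sum_ite_eq, mem_range]
    by_cases h : w R < i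
    · simp only [h, if_true, forall_const, ax, prod_boole]
      by_cases h' : ∃ f ∈ R.erase e, aliveX E w base j R f (w R) = false
      · rw [if_pos h', if_neg]
        · norm_num
        · obtain ⟨f, hf, hf'⟩ := h'
          intro hall; rw [hall f hf] at hf'; exact absurd hf' (by simp)
      · rw [if_neg h', if_pos]
        · norm_num
        · intro f hf
          by_contra hc
          exact h' ⟨f, hf, by simpa using hc⟩
    · simp [h]
  rw [prod_congr rfl fun R _ => hb R, prod_boole]
  simp only [ax, aliveX, decide_eq_true_eq]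

lemma dep_ax (base : Bool) :
    ∀ (j : ℕ) (X : Finset α) (e : α) (i : ℕ), Dep (ball E j X e) (ax E base j X e i) := by
  intro j
  induction j with
  | zero => intro X e i w w' _; rfl
  | succ j ih =>
    intro X e i w w' hw
    rw [ax_succ, ax_succ]
    refine prod_congr rfl fun R hR => ?_
    have hR' : w R = w' R := hw R (mem_biUnion.2 ⟨R, hR, mem_insert_self _ _⟩)
    rw [hR']
    congr 1
    refine sum_congr rfl fun l _ => ?_
    congr 1
    refine prod_congr rfl fun f hf => ih R f l w w' fun S hS => hw S ?_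
    exact mem_biUnion.2 ⟨R, hR, mem_insert_of_mem (mem_biUnion.2 ⟨f, hf, hS⟩)⟩

/-- On a tree ball the average of the evaluation is the recursion. -/
lemma avg_ax (base : Bool) (hM : 0 < M) :
    ∀ (j : ℕ) (X : Finset α) (e : α), TreeBall E j X e → ∀ i ≤ M,
      avgOrders E M (ax E base j X e i) = bp E M base j X e i := by
  intro j
  induction j with
  | zero =>
    intro X e _ i _
    have h0 : ∀ w, ax E base 0 X e i w = (fun _ : Finset α → ℕ => if base = true then (1 : ℝ) else 0) w :=
      fun w => rfl
    rw [bp, avg_congr h0, avg_const hM]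
  | succ j ih =>
    intro X e hT i hi
    obtain ⟨-, hin, hout⟩ := hT
    set N := (E.erase X).filter (fun R => e ∈ R) with hN
    set S : Finset α → Finset (Finset α) :=
      fun R => insert R ((R.erase e).biUnion fun f => ball E j R f) with hS
    have hdep : ∀ R ∈ N, Dep (S R) (fun w => 1 - ∑ l ∈ range i,
        (if w R = l then (1 : ℝ) else 0) * ∏ f ∈ R.erase e, ax E base j R f l w) := by
      intro R _ w w' hw
      have hR' : w R = w' R := hw R (mem_insert_self _ _)
      simp only [hR']
      congr 1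
      refine sum_congr rfl fun l _ => ?_
      congr 1
      exact prod_congr rfl fun f hf => dep_ax base j R f l w w' fun T hT =>
        hw T (mem_insert_of_mem (mem_biUnion.2 ⟨f, hf, hT⟩))
    rw [avg_congr (ax_succ base j X e i), avg_prod N S _ hdep hout hM, bp]
    refine prod_congr rfl fun R hR => ?_
    obtain ⟨h1, h2⟩ := hin R hR
    have hRE : R ∈ E := (mem_erase.1 (mem_filter.1 hR).1).2
    rw [avg_sub, avg_const hM, avg_sum, sum_div]
    congr 1
    refine sum_congr rfl fun l hl => ?_
    have hlM : l < M := lt_of_lt_of_le (mem_range.1 hl) hi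
    rw [avg_mul (S := {R}) (T := (R.erase e).biUnion fun f => ball E j R f)
        (fun w w' hw => by simp only [hw R (mem_singleton_self R)])
        (dep_prod _ _ _ fun f _ => dep_ax base j R f l)
        (disjoint_singleton_left.2 fun h => by
          obtain ⟨f, hf, hf'⟩ := mem_biUnion.1 h
          exact (h1 f hf).2 hf') hM,
      avg_single hRE hlM,
      avg_prod _ _ _ (fun f _ => dep_ax base j R f l) h2 hM,
      prod_congr rfl fun f hf => ih R f (h1 f hf).1 l hlM.le]
    ring

/-! ### Reachability -/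

/-- Points within one hyperedge of `e`. -/
def step (E : Finset (Finset α)) (e : α) : Finset α :=
  insert e ((E.filter fun R => e ∈ R).biUnion id)

/-- Points within `j` hyperedges of `e`. -/
def reach (E : Finset (Finset α)) : ℕ → α → Finset α
  | 0, e => {e}
  | j + 1, e => (step E e).biUnion fun f => reach E j f

lemma mem_step {e x : α} : x ∈ step E e ↔ x = e ∨ ∃ R ∈ E, e ∈ R ∧ x ∈ R := by
  simp [step, and_assoc]

lemma step_symm {e x : α} (h : x ∈ step E e) : e ∈ step E x := by
  rw [mem_step] at h ⊢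
  rcases h with h | ⟨R, h1, h2, h3⟩
  · exact Or.inl h.symm
  · exact Or.inr ⟨R, h1, h3, h2⟩

lemma self_mem_reach : ∀ (j : ℕ) (e : α), e ∈ reach E j e
  | 0, e => mem_singleton_self e
  | j + 1, e => mem_biUnion.2 ⟨e, mem_insert_self _ _, self_mem_reach j e⟩

lemma reach_trans : ∀ (a b : ℕ) (e x y : α),
    x ∈ reach E a e → y ∈ reach E b x → y ∈ reach E (a + b) e := by
  intro a
  induction a with
  | zero =>
    intro b e x y hx hy
    rw [reach, mem_singleton] at hx
    subst hx
    simpa using hy
  | succ a ih =>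
    intro b e x y hx hy
    obtain ⟨f, hf, hx'⟩ := mem_biUnion.1 hx
    rw [Nat.succ_add]
    exact mem_biUnion.2 ⟨f, hf, ih b f x y hx' hy⟩

lemma reach_symm : ∀ (j : ℕ) (e x : α), x ∈ reach E j e → e ∈ reach E j x := by
  intro j
  induction j with
  | zero => intro e x h; rw [reach, mem_singleton] at h ⊢; exact h.symm
  | succ j ih =>
    intro e x h
    obtain ⟨f, hf, hx⟩ := mem_biUnion.1 h
    exact reach_trans j 1 x f e (ih f x hx)
      (mem_biUnion.2 ⟨e, step_symm hf, self_mem_reach 0 e⟩)

lemma ball_reach : ∀ (j : ℕ) (X : Finset α) (e : α) (R : Finset α),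
    R ∈ ball E j X e → R ∈ E ∧ ∀ x ∈ R, x ∈ reach E j e := by
  intro j
  induction j with
  | zero => intro X e R h; simp [ball] at h
  | succ j ih =>
    intro X e R h
    obtain ⟨R0, hR0, h⟩ := mem_biUnion.1 h
    obtain ⟨hR0', he⟩ := mem_filter.1 hR0
    have hR0E := (mem_erase.1 hR0').2
    rcases mem_insert.1 h with rfl | h
    · exact ⟨hR0E, fun x hx => mem_biUnion.2
        ⟨x, mem_step.2 (Or.inr ⟨R, hR0E, he, hx⟩), self_mem_reach j x⟩⟩
    · obtain ⟨f, hf, hR⟩ := mem_biUnion.1 h
      obtain ⟨h1, h2⟩ := ih R0 f R hR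
      exact ⟨h1, fun x hx => mem_biUnion.2
        ⟨f, mem_step.2 (Or.inr ⟨R0, hR0E, he, (mem_erase.1 hf).2⟩), h2 x hx⟩⟩

lemma reach_card {V : Finset α} {Δ : ℕ} (hlin : Lin V E) (hΔ : ∀ e ∈ V, deg E e ≤ Δ) :
    ∀ (j : ℕ), ∀ e ∈ V, (reach E j e).card ≤ (3 * (Δ + 1)) ^ j := by
  intro j
  induction j with
  | zero => intro e _; simp [reach]
  | succ j ih =>
    intro e he
    have hsub : ∀ x ∈ step E e, x ∈ V := by
      intro x hx
      rcases mem_step.1 hx with rfl | ⟨R, hR, -, hx⟩
      · exact he
      · exact hlin.sub R hR hx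
    have hstep : (step E e).card ≤ 3 * (Δ + 1) := by
      have h1 : ((E.filter fun R => e ∈ R).biUnion id).card ≤ deg E e * 3 :=
        card_biUnion_le_card_mul _ _ _ fun R hR => (hlin.three R (mem_filter.1 hR).1).le
      have h2 := hΔ e he
      have h3 := card_insert_le e ((E.filter fun R => e ∈ R).biUnion id)
      unfold step; omega
    calc (reach E (j + 1) e).card
        ≤ (step E e).card * (3 * (Δ + 1)) ^ j :=
          card_biUnion_le_card_mul _ _ _ fun f hf => ih f (hsub f hf)
      _ ≤ 3 * (Δ + 1) * (3 * (Δ + 1)) ^ j := Nat.mul_le_mul_right _ hstep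
      _ = _ := by rw [pow_succ]; ring

/-- Exactness on tree balls, and the variance bound. -/
theorem goalTree : GoalTree := by
  intro α _ V E M j base Δ hlin hM hΔ
  have hit : ∀ (w : Finset α → ℕ) (e : α),
      (if aliveIt E w base j e M = true then (1 : ℝ) else 0) = ax E base j ∅ e M w := by
    intro w e
    rw [aliveIt_eq_aliveX w base j ∅ e M (fun _ h => absurd h (notMem_empty e))]
    rfl
  refine ⟨fun e he hT => ?_, ?_⟩
  · rw [avg_congr fun w => hit w e]
    exact avg_ax base hM j ∅ e hT M le_rfl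
  · classical
    set W := V \ defects V E j with hW
    set g : α → (Finset α → ℕ) → ℝ :=
      fun e w => ax E base j ∅ e M w - bp E M base j ∅ e M with hg
    have hsq : ∀ w : Finset α → ℕ,
        ((∑ e ∈ W, if aliveIt E w base j e M = true then (1 : ℝ) else 0)
          - ∑ e ∈ W, bp E M base j ∅ e M) ^ 2 = ∑ e ∈ W, ∑ f ∈ W, g e w * g f w := by
      intro w
      simp only [hit, ← sum_mul_sum, hg, sum_sub_distrib, sq]
    rw [avg_congr hsq, avg_sum]
    simp only [avg_sum]
    have htree : ∀ e ∈ W, TreeBall E j ∅ e := by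
      intro e he
      rw [hW, defects, mem_sdiff, mem_filter, not_and, not_not] at he
      exact he.2 he.1
    have hzero : ∀ e ∈ W, avgOrders E M (g e) = 0 := by
      intro e he
      simp only [hg]
      rw [avg_sub, avg_const hM, avg_ax base hM j ∅ e (htree e he) M le_rfl, sub_self]
    have hbp : ∀ e ∈ W, 0 ≤ bp E M base j ∅ e M ∧ bp E M base j ∅ e M ≤ 1 := by
      intro e he
      rw [← avg_ax base hM j ∅ e (htree e he) M le_rfl]
      constructor
      · exact le_of_eq_of_le (avg_const hM 0).symm (avg_mono fun w => (ax_nonneg _ _ _ _ _ w).1)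
      · exact le_of_le_of_eq (avg_mono fun w => (ax_nonneg _ _ _ _ _ w).2) (avg_const hM 1)
    have hcov : ∀ e ∈ W, ∀ f ∈ W,
        avgOrders E M (fun w => g e w * g f w)
          ≤ if f ∈ reach E (2 * j) e then 1 else 0 := by
      intro e he f hf
      by_cases hd : Disjoint (ball E j ∅ e) (ball E j ∅ f)
      · rw [avg_mul (fun w w' hw => by simp only [hg, dep_ax base j ∅ e M w w' hw])
          (fun w w' hw => by simp only [hg, dep_ax base j ∅ f M w w' hw]) hd hM,
          hzero e he, zero_mul]
        split_ifs <;> norm_num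
      · obtain ⟨R, hR1, hR2⟩ := not_disjoint_iff.1 hd
        obtain ⟨hRE, hx1⟩ := ball_reach j ∅ e R hR1
        obtain ⟨x, hx⟩ := card_pos.1 (by rw [hlin.three R hRE]; norm_num : 0 < R.card)
        have hfe : f ∈ reach E (2 * j) e := by
          rw [two_mul]
          exact reach_trans j j e x f (hx1 x hx)
            (reach_symm j f x ((ball_reach j ∅ f R hR2).2 x hx))
        rw [if_pos hfe]
        refine le_of_le_of_eq (avg_mono fun w => ?_) (avg_const hM 1)
        have h1 := ax_nonneg (E := E) base j ∅ e M w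
        have h2 := ax_nonneg (E := E) base j ∅ f M w
        have h3 := hbp e he
        have h4 := hbp f hf
        have ha : |g e w| ≤ 1 := abs_le.2 ⟨by simp only [hg]; linarith, by simp only [hg]; linarith⟩
        have hb : |g f w| ≤ 1 := abs_le.2 ⟨by simp only [hg]; linarith, by simp only [hg]; linarith⟩
        calc g e w * g f w ≤ |g e w * g f w| := le_abs_self _
          _ ≤ 1 := by rw [abs_mul]; exact mul_le_one₀ ha (abs_nonneg _) hb
    calc ∑ e ∈ W, ∑ f ∈ W, avgOrders E M (fun w => g e w * g f w)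
        ≤ ∑ e ∈ W, ∑ f ∈ W, (if f ∈ reach E (2 * j) e then (1 : ℝ) else 0) :=
          sum_le_sum fun e he => sum_le_sum fun f hf => hcov e he f hf
      _ ≤ ∑ e ∈ W, ((3 * ((Δ : ℝ) + 1)) ^ (2 * j + 2)) := by
          refine sum_le_sum fun e he => ?_
          rw [sum_boole]
          have h1 : (W.filter fun f => f ∈ reach E (2 * j) e).card
              ≤ (3 * (Δ + 1)) ^ (2 * j + 2) :=
            (card_le_card fun f hf => (mem_filter.1 hf).2).trans
              ((reach_card hlin hΔ _ e (mem_sdiff.1 he).1).trans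
                (Nat.pow_le_pow_right (by omega) (by omega)))
          exact_mod_cast h1
      _ = W.card * (3 * ((Δ : ℝ) + 1)) ^ (2 * j + 2) := by rw [sum_const, nsmul_eq_mul]
      _ ≤ _ := by
          gcongr
          exact sdiff_subset

end

end Vale.Agent.P046.Full
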