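import Vale.Agent.P046.Full.Defs
import Vale.Agent.P046.Full.Tree

/-!
The limit theorem from the five parts.
-/

namespace Vale.Agent.P046.Full

open Finset

noncomputable section

variable {α : Type*} [DecidableEq α] {E : Finset (Finset α)} {M : ℕ}

lemma avg_add (F G : (Finset α → ℕ) → ℝ) :
    avgOrders E M (fun w => F w + G w) = avgOrders E M F + avgOrders E M G := by
  simp only [avgOrders_def]
  rw [sum_add_distrib, add_div]

lemma avg_div (c : ℝ) (F : (Finset α → ℕ) → ℝ) :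
    avgOrders E M (fun w => F w / c) = avgOrders E M F / c := by
  simp only [avgOrders_def]
  rw [← sum_div, div_right_comm]

/-- A bound on the second moment bounds the first absolute moment. -/
lemma avg_abs_le (hM : 0 < M) (F : (Finset α → ℕ) → ℝ) {t v : ℝ} (ht : 0 < t)
    (hv : avgOrders E M (fun w => F w ^ 2) ≤ v) (hvt : v ≤ t ^ 2) :
    avgOrders E M (fun w => |F w|) ≤ t := by
  have h1 : avgOrders E M (fun w => |F w|) ≤ avgOrders E M (fun w => F w ^ 2 / (2 * t) + t / 2) := by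
    refine avg_mono fun w => ?_
    have h := sq_nonneg (|F w| - t)
    rw [← sq_abs (F w)]
    rw [div_add_div _ _ (by positivity) two_ne_zero, le_div_iff₀ (by positivity)]
    nlinarith
  refine h1.trans ?_
  rw [avg_add, avg_div, avg_const hM]
  have h2 : avgOrders E M (fun w => F w ^ 2) / (2 * t) ≤ t / 2 := by
    rw [div_le_iff₀ (by positivity)]
    nlinarith
  linarith

lemma bp_mem (E : Finset (Finset α)) (base : Bool) : ∀ (j : ℕ) (X : Finset α) (e : α),
    ∀ i ≤ M, 0 ≤ bp E M base j X e i ∧ bp E M base j X e i ≤ 1 := by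
  intro j
  induction j with
  | zero => intro X e i _; cases base <;> simp [bp]
  | succ j ih =>
    intro X e i hi
    have hf : ∀ R ∈ (E.erase X).filter (fun R => e ∈ R),
        0 ≤ 1 - (∑ l ∈ range i, ∏ f ∈ R.erase e, bp E M base j R f l) / (M : ℝ) ∧
        1 - (∑ l ∈ range i, ∏ f ∈ R.erase e, bp E M base j R f l) / (M : ℝ) ≤ 1 := by
      intro R _
      have hl : ∀ l ∈ range i, l ≤ M := fun l hl => ((mem_range.1 hl).trans_le hi).le
      have h0 : 0 ≤ ∑ l ∈ range i, ∏ f ∈ R.erase e, bp E M base j R f l :=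
        sum_nonneg fun l hl' => prod_nonneg fun f _ => (ih R f l (hl l hl')).1
      have h1 : ∑ l ∈ range i, ∏ f ∈ R.erase e, bp E M base j R f l ≤ (M : ℝ) := by
        calc _ ≤ ∑ l ∈ range i, (1 : ℝ) := sum_le_sum fun l hl' =>
              Finset.prod_le_one (fun f _ => (ih R f l (hl l hl')).1) fun f _ => (ih R f l (hl l hl')).2
          _ ≤ M := by simp; exact hi
      constructor
      · rcases Nat.eq_zero_or_pos M with rfl | hM
        · simp
        · rw [sub_nonneg, div_le_one (by exact_mod_cast hM)]; exact h1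
      · linarith [div_nonneg h0 (Nat.cast_nonneg' M : (0 : ℝ) ≤ M)]
    rw [bp]
    exact ⟨prod_nonneg fun R hR => (hf R hR).1,
      Finset.prod_le_one (fun R hR => (hf R hR).1) fun R hR => (hf R hR).2⟩

lemma expEnd_smul (a : ℝ) (φ : Finset α → ℝ) : ∀ (k : ℕ) (V : Finset α) (E : Finset (Finset α)),
    expEnd (fun W => a * φ W) k V E = a * expEnd φ k V E
  | 0, V, E => rfl
  | k + 1, V, E => by
      simp only [expEnd]
      split_ifs
      · rfl
      · rw [sum_congr rfl fun T _ => expEnd_smul a φ k (V \ T) (nextE E T), ← mul_sum, mul_div_assoc]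

lemma expEnd_nonneg (φ : Finset α → ℝ) (hφ : ∀ W, 0 ≤ φ W) :
    ∀ (k : ℕ) (V : Finset α) (E : Finset (Finset α)), 0 ≤ expEnd φ k V E
  | 0, V, E => hφ V
  | k + 1, V, E => by
      simp only [expEnd]
      split_ifs
      · exact hφ V
      · exact div_nonneg (sum_nonneg fun T _ => expEnd_nonneg φ hφ k _ _) (Nat.cast_nonneg' _)

omit [DecidableEq α] in
lemma leaveExp_smul {n : ℕ} (a : ℝ) (φ : ℕ → ℝ) (G : Finset (Finset (Fin n))) :
    leaveExp (fun k => a * φ k) G = a * leaveExp φ G := by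
  rw [leaveExp_eq _ _ G le_rfl, leaveExp_eq _ _ G le_rfl]
  exact expEnd_smul a _ _ _ _

omit [DecidableEq α] in
lemma leaveExp_nonneg {n : ℕ} (φ : ℕ → ℝ) (hφ : ∀ k, 0 ≤ φ k) (G : Finset (Finset (Fin n))) :
    0 ≤ leaveExp φ G := by
  rw [leaveExp_eq _ _ G le_rfl]
  exact expEnd_nonneg _ (fun W => hφ W.card) _ _ _

omit [DecidableEq α] in
lemma completeEdges_card (n : ℕ) :
    ((completeEdges n).card : ℝ) = (n : ℝ) * (n - 1) / 2 := by
  rw [completeEdges, card_powersetCard, card_univ, Fintype.card_fin, Nat.cast_choose_two]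

omit [DecidableEq α] in
lemma completeEdges_div (n : ℕ) :
    ((completeEdges n).card : ℝ) / √(n : ℝ) = ((n : ℝ) * √(n : ℝ) - √(n : ℝ)) / 2 := by
  rw [completeEdges_card]
  rcases Nat.eq_zero_or_pos n with rfl | hn
  · simp
  · have hs : 0 < √(n : ℝ) := Real.sqrt_pos.2 (by exact_mod_cast hn)
    rw [div_eq_iff hs.ne']
    linear_combination (-((n : ℝ) - 1) / 2) * Real.mul_self_sqrt (Nat.cast_nonneg' n : (0:ℝ) ≤ n)

omit [DecidableEq α] in
lemma center_bound {A R s ε : ℝ} (hε : 0 ≤ ε) (hε1 : ε ≤ 1) (hs : 0 ≤ s) (hsR : s ≤ R)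
    (hA : |A - (R - s) / 2| ≤ ε * ((R - s) / 2)) :
    A ≤ R ∧ |A / √2 - R / (2 * √2)| ≤ ε * R + s := by
  obtain ⟨h1, h2'⟩ := abs_le.1 hA
  have ha : ε * ((R - s) / 2) ≤ (R - s) / 2 := mul_le_of_le_one_left (by linarith) hε1
  have hb : ε * ((R - s) / 2) ≤ ε * R := mul_le_mul_of_nonneg_left (by linarith) hε
  have h2 : 1 ≤ √(2 : ℝ) := by rw [Real.le_sqrt (by norm_num) (by norm_num)]; norm_num
  refine ⟨by linarith, ?_⟩
  rw [← div_div R 2 √2, ← sub_div, abs_div, abs_of_pos (by linarith : (0:ℝ) < √2)]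
  refine (div_le_self (abs_nonneg _) h2).trans (abs_le.2 ⟨?_, ?_⟩) <;> linarith

omit [DecidableEq α] in
lemma reached_card {m D n : ℝ} (hm : m / √D ≤ n * √n) (hD : 0 < D) (hDn : D ≤ n) :
    m ≤ n ^ 2 := by
  have hn : 0 ≤ n := by linarith
  rw [div_le_iff₀ (Real.sqrt_pos.2 hD)] at hm
  calc m ≤ n * √n * √D := hm
    _ ≤ n * √n * √n := mul_le_mul_of_nonneg_left (Real.sqrt_le_sqrt hDn) (by positivity)
    _ = n ^ 2 := by rw [mul_assoc, Real.mul_self_sqrt hn]; ring

lemma NearReg.deg_le_two {V : Finset α} {D lam : ℝ} (h : NearReg V E D lam) (hD : 0 < D)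
    {e : α} (he : e ∈ V) : (deg E e : ℝ) ≤ 2 * D := by
  have h1 : lam ≤ √D := by
    rw [Real.le_sqrt (by linarith [h.one_le_lam]) hD.le]
    exact le_trans (pow_le_pow_right₀ h.one_le_lam (by norm_num)) h.lam_small
  have h2 : lam / √D ≤ 1 := div_le_one_of_le₀ h1 (Real.sqrt_nonneg _)
  have h3 := (abs_le.1 ((h.dev_le e he).trans h2)).2
  rw [dev] at h3
  have h4 : (deg E e : ℝ) / D ≤ 2 := by linarith
  rwa [div_le_iff₀ hD] at h4

omit [DecidableEq α] in
lemma var_bound {n L l K : ℝ} {j : ℕ} (hn : 0 < n) (hL : L = Real.log n) (hl : l = Real.log L)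
    (h9 : 9 ≤ L) (hl1 : 1 ≤ l) (hK : 0 ≤ K)
    (hl2 : 2 * (9001 * (36000 * K + 6)) * l ^ 2 ≤ L) (hj : (j : ℝ) ≤ 9000 * K * l + 1) :
    (3 * ((⌊2 * L ^ 9000⌋₊ : ℝ) + 1)) ^ (2 * (2 * j) + 2) ≤ √n := by
  have hL0 : 0 < L := by linarith
  have h1 : (⌊2 * L ^ 9000⌋₊ : ℝ) ≤ 2 * L ^ 9000 := Nat.floor_le (by positivity)
  have hp : (1 : ℝ) ≤ L ^ 9000 := one_le_pow₀ (by linarith)
  have hbase : 3 * ((⌊2 * L ^ 9000⌋₊ : ℝ) + 1) ≤ L ^ 9001 := by
    rw [pow_succ L 9000]
    nlinarith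
  refine (pow_le_pow_left₀ (by positivity) hbase _).trans ?_
  rw [← pow_mul, ← Real.log_le_log_iff (by positivity) (by positivity), Real.log_pow,
    Real.log_sqrt hn.le, ← hL, ← hl]
  have e : ((9001 * (2 * (2 * j) + 2) : ℕ) : ℝ) ≤ 9001 * ((36000 * K + 6) * l) := by
    push_cast
    nlinarith
  calc ((9001 * (2 * (2 * j) + 2) : ℕ) : ℝ) * l ≤ 9001 * ((36000 * K + 6) * l) * l :=
        mul_le_mul_of_nonneg_right e (by linarith)
    _ ≤ L / 2 := by linear_combination hl2 / 2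

omit [DecidableEq α] in
/-- The value of a state at which the stage hands over. -/
lemma reached_bound (hO : GoalOrders) (hT : GoalTree) {n : ℕ} (hn : 1 ≤ n)
    {G : Finset (Finset (Fin n))} {D ε : ℝ} {j M Δ : ℕ}
    (hε : 0 < ε) (hε1 : ε ≤ 1) (hDn : D ≤ n)
    (hA : |(G.card : ℝ) / √D - (completeEdges n).card / √(n : ℝ)|
      ≤ ε * ((completeEdges n).card / √(n : ℝ)))
    (hD : 0 < D) (hM : 0 < M) (hΔ : ∀ e ∈ G, deg (triHyper G) e ≤ Δ)
    (hvar : (G.card : ℝ) * (3 * ((Δ : ℝ) + 1)) ^ (2 * (2 * j) + 2)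
      ≤ (ε * ((n : ℝ) * √(n : ℝ))) ^ 2)
    (hflow : |(∑ e ∈ G, bp (triHyper G) M true M ∅ e M) - (G.card : ℝ) / √(2 * D)|
      ≤ ε * (G.card / √D))
    (hgap1 : (∑ e ∈ G, |bp (triHyper G) M true (2 * j) ∅ e M - bp (triHyper G) M false (2 * j) ∅ e M|)
      ≤ ε * (G.card / √D))
    (hgap2 : |(∑ e ∈ G, bp (triHyper G) M true (2 * j) ∅ e M)
      - ∑ e ∈ G, bp (triHyper G) M true M ∅ e M| ≤ ε * (G.card / √D))
    (hMerr : 2 * (n : ℝ) ^ 2 * ((triHyper G).card : ℝ) ^ 2 / M ≤ 1) :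
    leaveExp (fun k => |(k : ℝ) - (n : ℝ) * √(n : ℝ) / (2 * √2)|) G
      ≤ 6 * ε * ((n : ℝ) * √(n : ℝ)) + √(n : ℝ) + 1
        + (defects G (triHyper G) (2 * j)).card := by
  classical
  set E := triHyper G with hE
  set R := (n : ℝ) * √(n : ℝ) with hR
  set c := R / (2 * √2) with hc
  set d := ((defects G E (2 * j)).card : ℝ) with hd
  have hn0 : (1 : ℝ) ≤ n := by exact_mod_cast hn
  have hsn : 1 ≤ √(n : ℝ) := by rw [Real.le_sqrt (by norm_num) (by linarith)]; linarith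
  have hR1 : 1 ≤ R := by rw [hR]; nlinarith
  have hsn2 := Real.mul_self_sqrt (Nat.cast_nonneg' n : (0:ℝ) ≤ n)
  set A := (G.card : ℝ) / √D with hAdef
  have hA0 : 0 ≤ A := by rw [hAdef]; positivity
  rw [completeEdges_div, ← hR] at hA
  obtain ⟨hAR, hAc⟩ := center_bound hε.le hε1 (Real.sqrt_nonneg _)
    (by rw [hR]; nlinarith) hA
  have hGn : (G.card : ℝ) ≤ (n : ℝ) ^ 2 := reached_card hAR hD hDn
  have h2 : 1 ≤ √(2 : ℝ) := by rw [Real.le_sqrt (by norm_num) (by norm_num)]; norm_num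
  have hc0 : 0 ≤ c := by rw [hc]; positivity
  have hcn : c ≤ (n : ℝ) ^ 2 := by
    calc c ≤ R := div_le_self (by linarith) (by linarith)
      _ ≤ (n : ℝ) ^ 2 := by rw [hR]; nlinarith
  have hφ : ∀ W ⊆ G, |(fun W : Finset (Finset (Fin n)) => |(W.card : ℝ) - c|) W| ≤ (n : ℝ) ^ 2 := by
    intro W hW
    have : (W.card : ℝ) ≤ G.card := by exact_mod_cast card_le_card hW
    have h0 : (0 : ℝ) ≤ W.card := Nat.cast_nonneg' _
    rw [abs_abs, abs_le]
    constructor <;> linarith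
  have hord := hO (Finset (Fin n)) G E M (fun W => |(W.card : ℝ) - c|) ((n : ℝ) ^ 2)
    (triHyper_lin G) hM hφ
  obtain ⟨hord1, hsand⟩ := hord
  rw [leaveExp_eq _ _ G le_rfl, ← card_triHyper, ← hE]
  refine le_trans (show _ ≤ avgOrders E M (fun w =>
    |((G.filter fun e => aliveIt E w true M e M = true).card : ℝ) - c|) + 1 by
      linarith [(abs_le.1 hord1).2]) ?_
  set W := G \ defects G E (2 * j) with hW
  have hdef : defects G E (2 * j) ⊆ G := filter_subset _ _
  set SU := ∑ e ∈ W, bp E M true (2 * j) ∅ e M with hSU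
  set SL := ∑ e ∈ W, bp E M false (2 * j) ∅ e M with hSL
  set S := ∑ e ∈ G, bp E M true M ∅ e M with hS
  let U : (Finset (Finset (Fin n)) → ℕ) → ℝ := fun w =>
    ∑ e ∈ W, if aliveIt E w true (2 * j) e M = true then (1 : ℝ) else 0
  let L : (Finset (Finset (Fin n)) → ℕ) → ℝ := fun w =>
    ∑ e ∈ W, if aliveIt E w false (2 * j) e M = true then (1 : ℝ) else 0
  have hsplit : ∀ g : Finset (Fin n) → ℝ,
      ∑ e ∈ G, g e = (∑ e ∈ W, g e) + ∑ e ∈ defects G E (2 * j), g e :=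
    fun g => (sum_sdiff hdef).symm
  have hdsum : ∀ g : Finset (Fin n) → ℝ, (∀ e, 0 ≤ g e ∧ g e ≤ 1) →
      0 ≤ ∑ e ∈ defects G E (2 * j), g e ∧ ∑ e ∈ defects G E (2 * j), g e ≤ d := by
    intro g hg
    refine ⟨sum_nonneg fun e _ => (hg e).1, (sum_le_sum fun e _ => (hg e).2).trans_eq ?_⟩
    simp [hd]
  have hb : ∀ base : Bool, ∀ i : ℕ, ∀ e, 0 ≤ bp E M base i ∅ e M ∧ bp E M base i ∅ e M ≤ 1 :=
    fun base i e => bp_mem E base i ∅ e M le_rfl
  have hpt : ∀ w : Finset (Finset (Fin n)) → ℕ,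
      |((G.filter fun e => aliveIt E w true M e M = true).card : ℝ) - c|
        ≤ |U w - SU| + |L w - SL| + (d + 2 * (ε * A) + |S - c|) := by
    intro w
    have hcnt : ((G.filter fun e => aliveIt E w true M e M = true).card : ℝ)
        = ∑ e ∈ G, if aliveIt E w true M e M = true then (1 : ℝ) else 0 := (sum_boole _ _).symm
    have hup : ∑ e ∈ W, (if aliveIt E w true M e M = true then (1 : ℝ) else 0) ≤ U w := by
      refine sum_le_sum fun e _ => ?_
      by_cases h : aliveIt E w true M e M = true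
      · rw [if_pos h, if_pos ((hsand w j e).2 h)]
      · rw [if_neg h]; split_ifs <;> norm_num
    have hlo : L w ≤ ∑ e ∈ W, (if aliveIt E w true M e M = true then (1 : ℝ) else 0) := by
      refine sum_le_sum fun e _ => ?_
      by_cases h : aliveIt E w false (2 * j) e M = true
      · rw [if_pos h, if_pos ((hsand w j e).1 h)]
      · rw [if_neg h]; split_ifs <;> norm_num
    have h3 := hdsum (fun e => if aliveIt E w true M e M = true then (1 : ℝ) else 0)
      fun e => by split_ifs <;> norm_num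
    have h4 := hdsum _ (hb true (2 * j))
    have h5 := hdsum _ (hb false (2 * j))
    have h6 := hsplit fun e => if aliveIt E w true M e M = true then (1 : ℝ) else 0
    have h7 := hsplit fun e => bp E M true (2 * j) ∅ e M
    have h8 := hsplit fun e => bp E M false (2 * j) ∅ e M
    have h9 : |(∑ e ∈ G, bp E M true (2 * j) ∅ e M) - ∑ e ∈ G, bp E M false (2 * j) ∅ e M|
        ≤ ε * A := by
      rw [← sum_sub_distrib]; exact (abs_sum_le_sum_abs _ _).trans hgap1
    have h10 := abs_le.1 hgap2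
    have h11 := abs_le.1 h9
    rw [hcnt, abs_le]
    constructor
    · linarith [abs_nonneg (U w - SU), neg_abs_le (L w - SL), neg_abs_le (S - c)]
    · linarith [le_abs_self (U w - SU), abs_nonneg (L w - SL), le_abs_self (S - c)]
  have hvars := hT (Finset (Fin n)) G E M (2 * j) true Δ (triHyper_lin G) hM hΔ
  have hvarsL := hT (Finset (Fin n)) G E M (2 * j) false Δ (triHyper_lin G) hM hΔ
  have hεR : 0 < ε * R := by positivity
  have hU := avg_abs_le hM (fun w => U w - SU) hεR hvars.2 hvar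
  have hL := avg_abs_le hM (fun w => L w - SL) hεR hvarsL.2 hvar
  have hmean : avgOrders E M (fun w =>
      |((G.filter fun e => aliveIt E w true M e M = true).card : ℝ) - c|)
      ≤ ε * R + ε * R + (d + 2 * (ε * A) + |S - c|) := by
    refine (avg_mono hpt).trans ?_
    rw [avg_add, avg_add, avg_const hM]
    linarith
  have hcen : |S - c| ≤ ε * A + (ε * R + √(n : ℝ)) := by
    have e1 : (G.card : ℝ) / √(2 * D) = A / √2 := by
      rw [hAdef, Real.sqrt_mul (by norm_num) D, mul_comm, div_div]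
    calc |S - c| ≤ |S - (G.card : ℝ) / √(2 * D)| + |(G.card : ℝ) / √(2 * D) - c| :=
          abs_sub_le _ _ _
      _ ≤ ε * A + (ε * R + √(n : ℝ)) := by
          refine add_le_add hflow ?_
          rw [e1, hc]; exact hAc
  have hεA : ε * A ≤ ε * R := mul_le_mul_of_nonneg_left hAR hε.le
  linarith

omit [DecidableEq α] in
/-- The five parts give the limit. -/
theorem goalLimit_of_goals (hS : GoalStage) (hO : GoalOrders) (hT : GoalTree) (hF : GoalFlow)
    (hG : GoalGap) : GoalLimit := by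
  unfold GoalLimit
  rw [Metric.tendsto_atTop]
  intro η hη
  set ε := min (1 / 2) (η / 24) with hεdef
  have hε : 0 < ε := lt_min (by norm_num) (by linarith)
  have hε1 : ε ≤ 1 := (min_le_left _ _).trans (by norm_num)
  obtain ⟨D₁, hF⟩ := hF ε hε
  obtain ⟨K, D₂, hK, hG⟩ := hG ε hε
  obtain ⟨n₀, hS⟩ := hS ε (18000 * K + 2) hε (by positivity)
  have tcast : Filter.Tendsto (fun n : ℕ => (n : ℝ)) Filter.atTop Filter.atTop :=
    tendsto_natCast_atTop_atTop
  have tlog := Real.tendsto_log_atTop.comp tcast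
  set C := 9001 * (36000 * K + 6) with hC
  have hC0 : 0 < C := by positivity
  have ev1 : ∀ᶠ x in Filter.atTop, max (3 * max D₁ D₂) 9 ≤ Real.log x ∧
      Real.log x ^ 9000 ≤ x ∧ 1 ≤ Real.log (Real.log x) ∧
      2 * C * Real.log (Real.log x) ^ 2 ≤ Real.log x ∧
      max (1 / ε ^ 2) ((10 / η) ^ 2) ≤ √x ∧ 3 ≤ x := by
    have a1 := Real.tendsto_log_atTop.eventually_ge_atTop (max (3 * max D₁ D₂) 9)
    have a2 := (Real.isLittleO_pow_log_id_atTop (n := 9000)).bound (c := 1) one_pos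
    have a3 := (Real.tendsto_log_atTop.comp Real.tendsto_log_atTop).eventually_ge_atTop 1
    have a4 := Real.tendsto_log_atTop.eventually
      ((Real.isLittleO_pow_log_id_atTop (n := 2)).bound (c := 1 / (2 * C)) (by positivity))
    have a5 := Real.tendsto_sqrt_atTop.eventually_ge_atTop (max (1 / ε ^ 2) ((10 / η) ^ 2))
    filter_upwards [a1, a2, a3, a4, a5, Filter.eventually_ge_atTop (3 : ℝ)]
      with x h1 h2 h3 h4 h5 h6
    have hl : 0 ≤ Real.log x := Real.log_nonneg (by linarith)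
    refine ⟨h1, ?_, h3, ?_, h5, h6⟩
    · simp only [Real.norm_eq_abs, id_eq, one_mul] at h2
      rwa [abs_of_nonneg (by positivity), abs_of_nonneg (by linarith)] at h2
    · simp only [Real.norm_eq_abs, id_eq] at h4
      rw [abs_of_nonneg (sq_nonneg _), abs_of_nonneg hl, one_div_mul_eq_div,
        le_div_iff₀ (by positivity)] at h4
      linarith
  obtain ⟨n₁, hn₁⟩ := Filter.eventually_atTop.1 (tcast.eventually ev1)
  refine ⟨max n₀ n₁, fun n hn => ?_⟩
  obtain ⟨hbig, hLn, hl1, hl2, hsq, hn3⟩ := hn₁ n (le_of_max_le_right hn)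
  set Lg := Real.log (n : ℝ) with hLg
  set l := Real.log Lg with hl
  set R := (n : ℝ) * √(n : ℝ) with hR
  set φ : ℕ → ℝ := fun k => |(k : ℝ) - R / (2 * √2)| with hφdef
  have hn1 : 1 ≤ n := by
    have : (1 : ℝ) ≤ n := by linarith
    exact_mod_cast this
  have hsn : 1 ≤ √(n : ℝ) := by rw [Real.le_sqrt (by norm_num) (by linarith)]; linarith
  have hsn2 := Real.mul_self_sqrt (Nat.cast_nonneg' n : (0:ℝ) ≤ n)
  have hR0 : 0 < R := by rw [hR]; positivity
  have h9 : 9 ≤ Lg := le_of_max_le_right hbig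
  have hRn : R ≤ (n : ℝ) ^ 2 := by rw [hR]; nlinarith
  have h2 : 1 ≤ √(2 : ℝ) := by rw [Real.le_sqrt (by norm_num) (by norm_num)]; norm_num
  have hφ : ∀ x, x ≤ n ^ 2 → 0 ≤ φ x ∧ φ x ≤ (n : ℝ) ^ 2 := by
    intro x hx
    have hx' : (x : ℝ) ≤ (n : ℝ) ^ 2 := by exact_mod_cast hx
    have hc1 : R / (2 * √2) ≤ R := div_le_self hR0.le (by linarith)
    have hc2 : 0 ≤ R / (2 * √2) := by positivity
    have hx0 : (0 : ℝ) ≤ x := Nat.cast_nonneg' _
    refine ⟨abs_nonneg _, abs_le.2 ?_⟩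
    constructor <;> linarith
  set j := ⌈9000 * K * l⌉₊ with hj
  have hjlo : 9000 * K * l ≤ j := Nat.le_ceil _
  have hjhi : (j : ℝ) ≤ 9000 * K * l + 1 := (Nat.ceil_lt_add_one (by positivity)).le
  set B := 6 * ε * R + √(n : ℝ) + 1 with hB
  have hstage : leaveExp φ (completeEdges n) ≤ B + 1 * (n : ℝ) ^ (5 / 4 : ℝ) + 1 := by
    refine hS n (le_of_max_le_left hn) φ hφ B 1 (by positivity) zero_le_one (2 * j) ?_ ?_
    · push_cast; nlinarith
    rintro G ⟨D, hD1, hD2, hreg, hA⟩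
    rw [one_mul]
    have hLge : Lg ≤ Lg ^ 9000 := le_self_pow₀ (by linarith) (by norm_num)
    have hD0 : 3 ≤ D := by linarith
    have hm := le_of_max_le_left hbig
    have hD01 : max D₁ D₂ ≤ D := by linarith
    obtain ⟨M₁, hM₁⟩ := hF (Finset (Fin n)) G (triHyper G) D _ (le_of_max_le_left hD01) hreg
    have hlogD : Real.log D ≤ 9000 * l := by
      refine (Real.log_le_log (by linarith) hD2).trans_eq ?_
      rw [Real.log_pow]; push_cast; rfl
    obtain ⟨M₂, hM₂⟩ := hG (Finset (Fin n)) G (triHyper G) D _ (le_of_max_le_right hD01) hreg j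
      (le_trans (by nlinarith) hjlo)
    set q := 2 * (n : ℝ) ^ 2 * ((triHyper G).card : ℝ) ^ 2 with hq
    set M := max (max M₁ M₂) (max 1 ⌈q⌉₊) with hM
    have hM0 : 0 < M := lt_of_lt_of_le one_pos ((le_max_left _ _).trans (le_max_right _ _))
    obtain ⟨hg1, hg2⟩ := hM₂ M ((le_max_right _ _).trans (le_max_left _ _))
    refine reached_bound hO hT hn1 (Δ := ⌊2 * Lg ^ 9000⌋₊) hε hε1 (hD2.trans hLn) hA
      (by linarith) hM0 ?_ ?_ (hM₁ M ((le_max_left _ _).trans (le_max_left _ _))) hg1 hg2 ?_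
    · intro e he
      refine Nat.le_floor ?_
      linarith [hreg.deg_le_two (by linarith) he]
    · have hGn : (G.card : ℝ) ≤ (n : ℝ) ^ 2 := by
        rw [completeEdges_div, ← hR] at hA
        have h := center_bound hε.le hε1 (Real.sqrt_nonneg _) (by rw [hR]; nlinarith) hA
        exact reached_card h.1 (by linarith) (hD2.trans hLn)
      have hε2 : 1 ≤ ε ^ 2 * √(n : ℝ) := by
        have := le_of_max_le_left hsq
        rw [div_le_iff₀ (by positivity)] at this
        linarith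
      calc (G.card : ℝ) * (3 * ((⌊2 * Lg ^ 9000⌋₊ : ℝ) + 1)) ^ (2 * (2 * j) + 2)
          ≤ (n : ℝ) ^ 2 * √(n : ℝ) :=
            mul_le_mul hGn (var_bound (by linarith) hLg hl h9 hl1 hK.le hl2 hjhi)
              (by positivity) (by positivity)
        _ ≤ (n : ℝ) ^ 2 * √(n : ℝ) * (ε ^ 2 * √(n : ℝ)) := le_mul_of_one_le_right (by positivity) hε2
        _ = (ε * R) ^ 2 := by rw [hR]; ring
    · rw [← hq, div_le_one (by exact_mod_cast hM0)]
      calc q ≤ (⌈q⌉₊ : ℝ) := Nat.le_ceil q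
        _ ≤ M := by exact_mod_cast (le_max_right _ _).trans (le_max_right _ _)
  have hnR : (n : ℝ) ^ (3 / 2 : ℝ) = R := by
    rw [hR, show (3 / 2 : ℝ) = 1 + 1 / 2 by norm_num, Real.rpow_add (by linarith), Real.rpow_one,
      ← Real.sqrt_eq_rpow]
  have hscale : (fun k : ℕ => |(k : ℝ) / (n : ℝ) ^ (3 / 2 : ℝ) - 1 / (2 * √2)|)
      = fun k => R⁻¹ * φ k := by
    funext k
    rw [hnR, hφdef]
    simp only
    rw [← abs_of_pos (inv_pos.2 hR0), ← abs_mul]
    congr 1
    field_simp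
  have hs4 : 10 / η ≤ √(√(n : ℝ)) := by
    rw [Real.le_sqrt (by positivity) (Real.sqrt_nonneg _)]
    exact le_of_max_le_right hsq
  have h54 : (n : ℝ) ^ (5 / 4 : ℝ) = (n : ℝ) * √(√(n : ℝ)) := by
    rw [Real.sqrt_eq_rpow, Real.sqrt_eq_rpow, ← Real.rpow_mul (by linarith),
      show (5 / 4 : ℝ) = 1 + 1 / 2 * (1 / 2) by norm_num, Real.rpow_add (by linarith), Real.rpow_one]
  rw [hscale, leaveExp_smul, Real.dist_eq, sub_zero,
    abs_of_nonneg (mul_nonneg (inv_nonneg.2 hR0.le)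
      (leaveExp_nonneg φ (fun k => abs_nonneg _) _)),
    inv_mul_lt_iff₀ hR0]
  have hsmall : √(n : ℝ) + 2 + (n : ℝ) ^ (5 / 4 : ℝ) ≤ 4 * ((n : ℝ) * √(√(n : ℝ))) := by
    rw [h54]
    have hs : 1 ≤ √(√(n : ℝ)) := by rw [Real.le_sqrt (by norm_num) (Real.sqrt_nonneg _)]; linarith
    have h1 : √(n : ℝ) ≤ n := by
      calc √(n : ℝ) ≤ √(n : ℝ) * √(n : ℝ) := le_mul_of_one_le_right (Real.sqrt_nonneg _) hsn
        _ = n := hsn2
    have h2 : (n : ℝ) ≤ n * √(√(n : ℝ)) := le_mul_of_one_le_right (by linarith) hs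
    linarith
  have hmain : 10 * ((n : ℝ) * √(√(n : ℝ))) ≤ η * R := by
    have hq2 := Real.mul_self_sqrt (Real.sqrt_nonneg (n : ℝ))
    rw [div_le_iff₀ hη] at hs4
    calc 10 * ((n : ℝ) * √(√(n : ℝ))) ≤ √(√(n : ℝ)) * η * ((n : ℝ) * √(√(n : ℝ))) := by gcongr
      _ = η * R := by rw [hR]; linear_combination (η * (n : ℝ)) * hq2
  have hεη : 6 * ε * R ≤ η / 4 * R := by
    gcongr
    linarith [min_le_right (1 / 2 : ℝ) (η / 24)]
  have : 0 < η * R := by positivity
  linarith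

end

end Vale.Agent.P046.Full
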