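import Vale.Agent.P046.Full.Defs

/-!
Convergence in probability and in mean, from the convergence in `L¹`.
-/

namespace Vale.Agent.P046.Full

open Finset

noncomputable section

variable {n : ℕ}

lemma leave_rec_induction {P : Finset (Finset (Fin n)) → Prop}
    (h0 : ∀ G, triangles G = ∅ → P G)
    (h1 : ∀ G, triangles G ≠ ∅ → (∀ T : {T // T ∈ triangles G}, P (G \ T.1.powersetCard 2)) → P G)
    (G : Finset (Finset (Fin n))) : P G := by
  suffices h : ∀ (k : ℕ) (G : Finset (Finset (Fin n))), G.card = k → P G from h _ G rfl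
  intro k
  induction k using Nat.strong_induction_on with
  | _ k ih =>
    intro G hk
    by_cases h : triangles G = ∅
    · exact h0 G h
    · refine h1 G h fun T => ih _ ?_ _ rfl
      obtain ⟨h3, hsub⟩ := mem_filter.1 T.2
      rw [← hk]
      refine card_lt_card (sdiff_ssubset hsub ?_)
      rw [powersetCard_nonempty, (mem_powersetCard.1 h3).2]
      norm_num

lemma leave_mono (φ ψ : ℕ → ℝ) (h : ∀ k, φ k ≤ ψ k) (G : Finset (Finset (Fin n))) :
    leaveExp φ G ≤ leaveExp ψ G := by
  refine leave_rec_induction (P := fun G => leaveExp φ G ≤ leaveExp ψ G) (fun G h0 => ?_)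
    (fun G h0 ih => ?_) G
  · rw [leaveExp, if_pos h0, leaveExp, if_pos h0]; exact h _
  · rw [leaveExp, if_neg h0, leaveExp, if_neg h0]
    exact div_le_div_of_nonneg_right (sum_le_sum fun T _ => ih T) (Nat.cast_nonneg _)

lemma leave_affine (a b : ℝ) (φ : ℕ → ℝ) (G : Finset (Finset (Fin n))) :
    leaveExp (fun k => a * φ k + b) G = a * leaveExp φ G + b := by
  refine leave_rec_induction
    (P := fun G => leaveExp (fun k => a * φ k + b) G = a * leaveExp φ G + b) (fun G h0 => ?_)
    (fun G h0 ih => ?_) G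
  · rw [leaveExp, if_pos h0, leaveExp, if_pos h0]
  · rw [leaveExp, if_neg h0, leaveExp, if_neg h0, sum_congr rfl fun T _ => ih T, sum_add_distrib,
      ← mul_sum, sum_const, card_attach, nsmul_eq_mul]
    have : ((triangles G).card : ℝ) ≠ 0 := by
      simpa [card_eq_zero] using h0
    field_simp

/-- Convergence in probability and in mean. -/
theorem limit_of_goalLimit (h : GoalLimit) :
    (∀ ε : ℝ, 0 < ε → Filter.Tendsto
      (fun n : ℕ => leaveExp (fun k =>
        if ε ≤ |(k : ℝ) / (n : ℝ) ^ (3 / 2 : ℝ) - 1 / (2 * √2)| then (1 : ℝ) else 0)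
        (completeEdges n)) Filter.atTop (nhds 0)) ∧
    Filter.Tendsto (fun n : ℕ => leaveExp (fun k => (k : ℝ) / (n : ℝ) ^ (3 / 2 : ℝ))
      (completeEdges n)) Filter.atTop (nhds (1 / (2 * √2))) := by
  set c : ℝ := 1 / (2 * √2) with hc
  refine ⟨fun ε hε => ?_, ?_⟩
  · have h' := h.const_mul (1 / ε)
    rw [mul_zero] at h'
    refine squeeze_zero (fun n => ?_) (fun n => ?_) h'
    · have h0 := leave_mono (fun _ => (0 : ℝ) * 0 + 0)
        (fun k => if ε ≤ |(k : ℝ) / (n : ℝ) ^ (3 / 2 : ℝ) - c| then (1 : ℝ) else 0)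
        (fun k => by simp only [mul_zero, add_zero]; split <;> norm_num) (completeEdges n)
      rw [leave_affine 0 0 (fun _ => 0)] at h0
      simpa using h0
    · refine (leave_mono _ (fun k => 1 / ε * |(k : ℝ) / (n : ℝ) ^ (3 / 2 : ℝ) - c| + 0)
        (fun k => ?_) _).trans (le_of_eq (by rw [leave_affine, add_zero]))
      split
      · rename_i hk
        rw [add_zero, div_mul_eq_mul_div, one_mul, le_div_iff₀ hε, one_mul]
        exact hk
      · positivity
  · rw [tendsto_iff_norm_sub_tendsto_zero]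
    refine squeeze_zero (fun n => norm_nonneg _) (fun n => ?_) h
    set G := completeEdges n
    set ψ : ℕ → ℝ := fun k => |(k : ℝ) / (n : ℝ) ^ (3 / 2 : ℝ) - c|
    have e1 : leaveExp (fun k => (k : ℝ) / (n : ℝ) ^ (3 / 2 : ℝ)) G - c
        = leaveExp (fun k => 1 * ((k : ℝ) / (n : ℝ) ^ (3 / 2 : ℝ)) + -c) G := by
      rw [leave_affine]; ring
    rw [Real.norm_eq_abs, e1, abs_le]
    constructor
    · have := leave_mono (fun k => -1 * ψ k + 0)
        (fun k => 1 * ((k : ℝ) / (n : ℝ) ^ (3 / 2 : ℝ)) + -c)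
        (fun k => by
          have := neg_abs_le ((k : ℝ) / (n : ℝ) ^ (3 / 2 : ℝ) - c)
          simp only [ψ]; linarith) G
      rw [leave_affine (-1) 0 ψ] at this
      linarith
    · exact leave_mono _ ψ
        (fun k => by
          have := le_abs_self ((k : ℝ) / (n : ℝ) ^ (3 / 2 : ℝ) - c)
          simp only [ψ]; linarith) G

end

end Vale.Agent.P046.Full
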