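import Vale.Agent.P046.Bridge

/-!
Interface of the proof that `F_n / n^{3/2} → 1/(2√2)`.

The proof has five independent parts: a self-correcting stage down to degree `(log n)^9000`
(`GoalStage`), the identification of random greedy with random priorities (`GoalOrders`), local
tree computation (`GoalTree`), the analysis of the tree recursion (`GoalFlow`), and the decay of
the truncation gap (`GoalGap`).
-/

namespace Vale.Agent.P046.Full

open Finset

noncomputable section

variable {α : Type*} [DecidableEq α]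

/-- Sum of the neighbouring deviations, normalised by the reference degree. -/
def nbrDev (E : Finset (Finset α)) (D : ℝ) (e : α) : ℝ :=
  (∑ R ∈ E.filter (fun R => e ∈ R), ∑ f ∈ R.erase e, dev E D f) / D

/-- Near-regularity to first and second order. -/
structure NearReg (V : Finset α) (E : Finset (Finset α)) (D lam : ℝ) : Prop where
  lin : Lin V E
  one_le_lam : 1 ≤ lam
  lam_small : lam ^ 400 ≤ D
  dev_le : ∀ e ∈ V, |dev E D e| ≤ lam / √D
  nbr_le : ∀ e ∈ V, |nbrDev E D e| ≤ lam / D

/-- Truncated evaluation of `the point e is still uncovered before time i` for priorities `w`. -/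
def aliveIt (E : Finset (Finset α)) (w : Finset α → ℕ) (base : Bool) : ℕ → α → ℕ → Bool
  | 0, _, _ => base
  | j + 1, e, i => decide (∀ R ∈ E, e ∈ R → w R < i →
      ∃ f ∈ R.erase e, aliveIt E w base j f (w R) = false)

/-- Average over all priority assignments `E → {0, …, M-1}`. -/
def avgOrders (E : Finset (Finset α)) (M : ℕ) (φ : (Finset α → ℕ) → ℝ) : ℝ :=
  (∑ p ∈ E.pi fun _ => range M, φ fun R => if h : R ∈ E then p R h else M) / (M : ℝ) ^ E.card

/-- The tree recursion: `bp E M base j X e i` predicts that `e` is uncovered before time `i`,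
ignoring the hyperedge `X`. -/
def bp (E : Finset (Finset α)) (M : ℕ) (base : Bool) : ℕ → Finset α → α → ℕ → ℝ
  | 0, _, _, _ => if base then 1 else 0
  | j + 1, X, e, i => ∏ R ∈ (E.erase X).filter (fun R => e ∈ R),
      (1 - (∑ l ∈ range i, ∏ f ∈ R.erase e, bp E M base j R f l) / M)

/-- The hyperedges relevant to the depth `j` evaluation at `e`, entered from `X`. -/
def ball (E : Finset (Finset α)) : ℕ → Finset α → α → Finset (Finset α)
  | 0, _, _ => ∅
  | j + 1, X, e => ((E.erase X).filter fun R => e ∈ R).biUnion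
      fun R => insert R ((R.erase e).biUnion fun f => ball E j R f)

/-- The depth `j` ball at `e` is a tree: all branches use disjoint hyperedges. -/
def TreeBall (E : Finset (Finset α)) : ℕ → Finset α → α → Prop
  | 0, _, _ => True
  | j + 1, X, e => X ∉ ball E (j + 1) X e ∧
      (∀ R ∈ (E.erase X).filter (fun R => e ∈ R),
        (∀ f ∈ R.erase e, TreeBall E j R f ∧ R ∉ ball E j R f) ∧
        (∀ f ∈ R.erase e, ∀ g ∈ R.erase e, f ≠ g →
          Disjoint (ball E j R f) (ball E j R g))) ∧
      (∀ R ∈ (E.erase X).filter (fun R => e ∈ R), ∀ S ∈ (E.erase X).filter (fun R => e ∈ R),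
        R ≠ S → Disjoint (insert R ((R.erase e).biUnion fun f => ball E j R f))
          (insert S ((S.erase e).biUnion fun f => ball E j S f)))

open Classical in
/-- The roots whose depth `j` ball is not a tree. -/
def defects (V : Finset α) (E : Finset (Finset α)) (j : ℕ) : Finset α :=
  V.filter fun e => ¬ TreeBall E j ∅ e

/-- The states at which the self-correcting stage hands over. -/
def Reached (ε : ℝ) (n : ℕ) (G : Finset (Finset (Fin n))) : Prop :=
  ∃ D : ℝ, Real.log n ^ 9000 / 3 ≤ D ∧ D ≤ Real.log n ^ 9000 ∧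
    NearReg G (triHyper G) D (Real.log n ^ 20) ∧
    |(G.card : ℝ) / √D - (completeEdges n).card / √(n : ℝ)| ≤
      ε * ((completeEdges n).card / √(n : ℝ))

/-- Stage one: the process reaches a near-regular state with few short cycles. -/
def GoalStage : Prop :=
  ∀ ε K : ℝ, 0 < ε → 0 < K → ∃ n₀ : ℕ, ∀ n ≥ n₀, ∀ φ : ℕ → ℝ,
    (∀ x, x ≤ n ^ 2 → 0 ≤ φ x ∧ φ x ≤ (n : ℝ) ^ 2) → ∀ B c : ℝ, 0 ≤ B → 0 ≤ c →
    ∀ k : ℕ, (k : ℝ) ≤ K * Real.log (Real.log n) →
    (∀ G, Reached ε n G →
      leaveExp φ G ≤ B + c * (defects G (triHyper G) k).card) →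
    leaveExp φ (completeEdges n) ≤ B + c * (n : ℝ) ^ (5 / 4 : ℝ) + 1

/-- Random greedy equals priority greedy up to ties; the truncations sandwich the truth. -/
def GoalOrders : Prop :=
  ∀ (α : Type) [DecidableEq α] (V : Finset α) (E : Finset (Finset α)) (M : ℕ)
    (φ : Finset α → ℝ) (B : ℝ), Lin V E → 0 < M → (∀ W ⊆ V, |φ W| ≤ B) →
    |expEnd φ E.card V E
        - avgOrders E M (fun w => φ (V.filter fun e => aliveIt E w true M e M = true))|
      ≤ 2 * B * (E.card : ℝ) ^ 2 / M ∧
    ∀ (w : Finset α → ℕ) (j : ℕ) (e : α),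
      (aliveIt E w false (2 * j) e M = true → aliveIt E w true M e M = true) ∧
      (aliveIt E w true M e M = true → aliveIt E w true (2 * j) e M = true)

/-- Exactness of the recursion on tree balls, and the variance bound for local counts. -/
def GoalTree : Prop :=
  ∀ (α : Type) [DecidableEq α] (V : Finset α) (E : Finset (Finset α)) (M j : ℕ) (base : Bool)
    (Δ : ℕ), Lin V E → 0 < M → (∀ e ∈ V, deg E e ≤ Δ) →
    (∀ e ∈ V, TreeBall E j ∅ e →
      avgOrders E M (fun w => if aliveIt E w base j e M = true then 1 else 0)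
        = bp E M base j ∅ e M) ∧
    avgOrders E M (fun w =>
      ((∑ e ∈ V \ defects V E j, if aliveIt E w base j e M = true then (1:ℝ) else 0)
        - ∑ e ∈ V \ defects V E j, bp E M base j ∅ e M) ^ 2)
      ≤ (V.card : ℝ) * (3 * (Δ + 1)) ^ (2 * j + 2)

/-- The tree recursion predicts `|V| / √(2D)` uncovered points. -/
def GoalFlow : Prop :=
  ∀ ε : ℝ, 0 < ε → ∃ D₀ : ℝ, ∀ (α : Type) [DecidableEq α] (V : Finset α)
    (E : Finset (Finset α)) (D lam : ℝ), D₀ ≤ D → NearReg V E D lam →
    ∃ M₀ : ℕ, ∀ M ≥ M₀,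
      |(∑ e ∈ V, bp E M true M ∅ e M) - (V.card : ℝ) / √(2 * D)| ≤ ε * (V.card / √D)

/-- The truncation gap closes at logarithmic depth. -/
def GoalGap : Prop :=
  ∀ ε : ℝ, 0 < ε → ∃ K D₀ : ℝ, 0 < K ∧ ∀ (α : Type) [DecidableEq α] (V : Finset α)
    (E : Finset (Finset α)) (D lam : ℝ), D₀ ≤ D → NearReg V E D lam →
    ∀ j : ℕ, K * Real.log D ≤ j → ∃ M₀ : ℕ, ∀ M ≥ M₀,
      (∑ e ∈ V, |bp E M true (2 * j) ∅ e M - bp E M false (2 * j) ∅ e M|) ≤ ε * (V.card / √D) ∧
      |(∑ e ∈ V, bp E M true (2 * j) ∅ e M) - ∑ e ∈ V, bp E M true M ∅ e M|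
        ≤ ε * (V.card / √D)

/-- The final theorem. -/
def GoalLimit : Prop :=
  Filter.Tendsto
    (fun n : ℕ => leaveExp (fun k => |(k : ℝ) / (n : ℝ) ^ (3 / 2 : ℝ) - 1 / (2 * √2)|)
      (completeEdges n)) Filter.atTop (nhds 0)

end

end Vale.Agent.P046.Full
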