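import Vale.Agent.P046.Full.Defs

/-!
`GoalOrders`: random greedy equals priority greedy up to ties, and the truncated evaluations
sandwich the exact one.
-/

namespace Vale.Agent.P046.Full.Orders

open Finset

noncomputable section

variable {α : Type} [DecidableEq α]

lemma aliveIt_succ_iff {E : Finset (Finset α)} {w : Finset α → ℕ} {b : Bool} {j : ℕ} {e : α}
    {i : ℕ} :
    aliveIt E w b (j + 1) e i = true ↔ ∀ R ∈ E, e ∈ R → w R < i →
      ∃ f ∈ R.erase e, aliveIt E w b j f (w R) = false := by
  simp [aliveIt]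

/-- From depth `i` on, the evaluation at time `i` is exact. -/
lemma stab (E : Finset (Finset α)) (w : Finset α → ℕ) : ∀ (i j : ℕ) (e : α), i ≤ j →
    aliveIt E w true j e i = aliveIt E w true i e i := by
  intro i
  induction i using Nat.strong_induction_on with
  | _ i ih =>
    intro j e hij
    rcases i with _ | i
    · cases j with
      | zero => rfl
      | succ j => simp [aliveIt]
    · obtain ⟨j, rfl⟩ : ∃ j', j = j' + 1 := ⟨j - 1, by omega⟩
      rw [Bool.eq_iff_iff, aliveIt_succ_iff, aliveIt_succ_iff]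
      refine forall₄_congr fun R _ _ h => exists_congr fun f => and_congr_right fun _ => ?_
      rw [ih (w R) h j f (by omega), ih (w R) h i f (by omega)]

/-- The exact evaluation. -/
def exact' (E : Finset (Finset α)) (w : Finset α → ℕ) (e : α) (i : ℕ) : Bool :=
  aliveIt E w true i e i

lemma exact'_iff {E : Finset (Finset α)} {w : Finset α → ℕ} {e : α} {i : ℕ} :
    exact' E w e i = true ↔ ∀ R ∈ E, e ∈ R → w R < i →
      ∃ f ∈ R.erase e, exact' E w f (w R) = false := by
  rcases i with _ | i
  · simp [exact', aliveIt]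
  · rw [exact', aliveIt_succ_iff]
    refine forall₄_congr fun R _ _ h => exists_congr fun f => and_congr_right fun _ => ?_
    rw [stab E w (w R) i f (by omega), exact']

lemma exact'_congr {E : Finset (Finset α)} {w w' : Finset α → ℕ} (h : ∀ R ∈ E, w R = w' R)
    (e : α) (i : ℕ) : exact' E w e i = exact' E w' e i := by
  induction i using Nat.strong_induction_on generalizing e with
  | _ i ih =>
    rw [Bool.eq_iff_iff, exact'_iff, exact'_iff]
    refine forall₃_congr fun R hR _ => ?_
    rw [← h R hR]
    refine imp_congr_right fun hlt => exists_congr fun f => and_congr_right fun _ => ?_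
    rw [ih (w R) hlt]

/-- The truncations sandwich the exact evaluation. -/
lemma sandwich (E : Finset (Finset α)) (w : Finset α → ℕ) : ∀ (j : ℕ) (e : α) (i : ℕ),
    (aliveIt E w false (2 * j) e i = true → exact' E w e i = true) ∧
      (exact' E w e i = true → aliveIt E w true (2 * j) e i = true) := by
  intro j
  induction j with
  | zero => intro e i; simp [aliveIt]
  | succ j ih =>
    intro e i
    have odd : ∀ f t, (exact' E w f t = true → aliveIt E w false (2 * j + 1) f t = true) ∧
        (aliveIt E w true (2 * j + 1) f t = true → exact' E w f t = true) := by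
      intro f t
      rw [exact'_iff, aliveIt_succ_iff, aliveIt_succ_iff]
      constructor <;> intro h R hR he hlt <;> obtain ⟨g, hg, hg'⟩ := h R hR he hlt <;>
        refine ⟨g, hg, Bool.eq_false_iff.2 fun hc => ?_⟩
      · exact absurd ((ih g _).1 hc) (by simp [hg'])
      · exact absurd ((ih g _).2 hc) (by simp [hg'])
    rw [show 2 * (j + 1) = 2 * j + 1 + 1 from rfl, exact'_iff, aliveIt_succ_iff,
      aliveIt_succ_iff]
    constructor <;> intro h R hR he hlt <;> obtain ⟨g, hg, hg'⟩ := h R hR he hlt <;>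
      refine ⟨g, hg, Bool.eq_false_iff.2 fun hc => ?_⟩
    · exact absurd ((odd g _).1 hc) (by simp [hg'])
    · exact absurd ((odd g _).2 hc) (by simp [hg'])

/-- A hyperedge of least priority kills its points. -/
lemma exact'_min_dead {E : Finset (Finset α)} {w : Finset α → ℕ} {T : Finset α} (hT : T ∈ E)
    (hmin : ∀ R ∈ E, R ≠ T → w T < w R) {e : α} (he : e ∈ T) {i : ℕ} (hi : w T < i) :
    exact' E w e i = false := by
  rw [Bool.eq_false_iff]
  intro h
  obtain ⟨f, -, hf⟩ := exact'_iff.1 h T hT he hi
  refine absurd (exact'_iff.2 fun R hR _ hlt => ?_) (by simp [hf] : ¬ exact' E w f (w T) = true)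
  by_cases hRT : R = T
  · exact absurd hlt (by simp [hRT])
  · exact absurd hlt (Nat.lt_asymm (hmin R hR hRT))

/-- A hyperedge of least priority reduces the evaluation to the next hypergraph. -/
lemma exact'_min_next {E : Finset (Finset α)} {w : Finset α → ℕ} {T : Finset α} (hT : T ∈ E)
    (hmin : ∀ R ∈ E, R ≠ T → w T < w R) : ∀ (i : ℕ) (e : α), e ∉ T →
      exact' E w e i = exact' (nextE E T) w e i := by
  intro i
  induction i using Nat.strong_induction_on with
  | _ i ih =>
    intro e he
    rw [Bool.eq_iff_iff, exact'_iff, exact'_iff]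
    constructor
    · intro h R hR heR hlt
      obtain ⟨hR, hd⟩ := mem_filter.1 hR
      obtain ⟨f, hf, hf'⟩ := h R hR heR hlt
      refine ⟨f, hf, ?_⟩
      rwa [← ih _ hlt f (disjoint_right.1 hd (mem_erase.1 hf).2)]
    · intro h R hR heR hlt
      by_cases hd : Disjoint T R
      · obtain ⟨f, hf, hf'⟩ := h R (mem_filter.2 ⟨hR, hd⟩) heR hlt
        exact ⟨f, hf, by rwa [ih _ hlt f (disjoint_right.1 hd (mem_erase.1 hf).2)]⟩
      · obtain ⟨f, hfT, hfR⟩ := not_disjoint_iff.1 hd
        refine ⟨f, mem_erase.2 ⟨fun h => he (h ▸ hfT), hfR⟩,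
          exact'_min_dead hT hmin hfT (hmin R hR fun h => he (h ▸ heR))⟩

lemma expEnd_zero (φ : Finset α → ℝ) (k : ℕ) (W : Finset α) : expEnd φ k W ∅ = φ W := by
  cases k <;> simp [expEnd]

lemma expEnd_fuel (φ : Finset α → ℝ) : ∀ (k : ℕ) (W : Finset α) (E : Finset (Finset α)),
    (∀ T ∈ E, T.Nonempty) → E.card ≤ k → expEnd φ k W E = expEnd φ E.card W E := by
  intro k
  induction k using Nat.strong_induction_on with
  | _ k ih =>
    intro W E hne hk
    rcases eq_or_ne E ∅ with rfl | hE
    · simp [expEnd_zero]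
    obtain ⟨m, hm⟩ : ∃ m, E.card = m + 1 := ⟨E.card - 1, by
      have := card_pos.2 (nonempty_iff_ne_empty.2 hE); omega⟩
    obtain ⟨k, rfl⟩ : ∃ k', k = k' + 1 := ⟨k - 1, by omega⟩
    rw [hm, expEnd, expEnd, if_neg (by omega), if_neg (by omega)]
    congr 1
    refine sum_congr rfl fun T hT => ?_
    have hlt := nextE_card_lt hT (hne T hT)
    have hn : ∀ R ∈ nextE E T, R.Nonempty := fun R hR => hne R (mem_filter.1 hR).1
    rw [ih k (by omega) _ _ hn (by omega)]
    rcases eq_or_lt_of_le (show m ≤ k by omega) with rfl | hmk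
    · rw [ih m (by omega) _ _ hn (by omega)]
    · rw [ih m (by omega) _ _ hn (by omega)]

lemma expEnd_abs_le {φ : Finset α → ℝ} {V : Finset α} {B : ℝ} (hφ : ∀ W ⊆ V, |φ W| ≤ B) :
    ∀ (k : ℕ) (W : Finset α) (E : Finset (Finset α)), W ⊆ V → |expEnd φ k W E| ≤ B := by
  intro k
  induction k with
  | zero => intro W E hW; exact hφ W hW
  | succ k ih =>
    intro W E hW
    rw [expEnd]
    split_ifs with h
    · exact hφ W hW
    · have hq : (0:ℝ) < E.card := by exact_mod_cast Nat.pos_of_ne_zero h
      rw [abs_div, abs_of_pos hq, div_le_iff₀ hq]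
      refine (abs_sum_le_sum_abs _ _).trans ?_
      refine (sum_le_sum fun T _ => ih (W \ T) (nextE E T) (sdiff_subset.trans hW)).trans ?_
      rw [sum_const, nsmul_eq_mul, mul_comm]

/-- The value of the process, with enough fuel. -/
def val (φ : Finset α → ℝ) (W : Finset α) (E : Finset (Finset α)) : ℝ := expEnd φ E.card W E

lemma val_step (φ : Finset α → ℝ) (W : Finset α) {E : Finset (Finset α)}
    (hne : ∀ T ∈ E, T.Nonempty) :
    ∑ T ∈ E, val φ (W \ T) (nextE E T) = E.card * val φ W E := by
  rcases eq_or_ne E ∅ with rfl | hE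
  · simp
  obtain ⟨m, hm⟩ : ∃ m, E.card = m + 1 := ⟨E.card - 1, by
    have := card_pos.2 (nonempty_iff_ne_empty.2 hE); omega⟩
  have h0 : (E.card : ℝ) ≠ 0 := by rw [hm]; positivity
  conv_rhs => rw [val, hm, expEnd, if_neg (by omega), ← hm, mul_div_cancel₀ _ h0]
  refine sum_congr rfl fun T hT => ?_
  have hlt := nextE_card_lt hT (hne T hT)
  exact (expEnd_fuel φ m (W \ T) (nextE E T) (fun R hR => hne R (mem_filter.1 hR).1) (by omega)).symm

variable {E : Finset (Finset α)} {M : ℕ}

/-- Priorities on `E` as a function on all sets. -/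
def ext (E : Finset (Finset α)) (M : ℕ) (p : ↥E → ℕ) (R : Finset α) : ℕ :=
  if h : R ∈ E then p ⟨R, h⟩ else M

lemma ext_coe (p : ↥E → ℕ) (R : ↥E) : ext E M p R = p R := by
  simp [ext]

/-- Assignments of values in `S` on `U`, zero elsewhere. -/
def funs (U : Finset ↥E) (S : Finset ℕ) : Finset (↥E → ℕ) :=
  Fintype.piFinset fun R => if R ∈ U then S else {0}

/-- The injective ones. -/
def inj (U : Finset ↥E) (S : Finset ℕ) : Finset (↥E → ℕ) :=
  (funs U S).filter fun p => ∀ R ∈ U, ∀ T ∈ U, p R = p T → R = T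

lemma mem_funs {U : Finset ↥E} {S : Finset ℕ} {p : ↥E → ℕ} :
    p ∈ funs U S ↔ (∀ R ∈ U, p R ∈ S) ∧ ∀ R, R ∉ U → p R = 0 := by
  rw [funs, Fintype.mem_piFinset]
  constructor
  · intro h
    exact ⟨fun R hR => by simpa [hR] using h R, fun R hR => by simpa [hR] using h R⟩
  · intro h R
    by_cases hR : R ∈ U
    · simpa [hR] using h.1 R hR
    · simpa [hR] using h.2 R hR

lemma inj_fiber (U : Finset ↥E) (S : Finset ℕ) {T : ↥E} (hT : T ∈ U) {m : ℕ} (hm : m ∈ S)
    (F : (↥E → ℕ) → ℝ) :
    ∑ p ∈ (inj U S).filter (fun p => p T = m ∧ ∀ R ∈ U, R ≠ T → p T < p R), F p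
      = ∑ p ∈ inj (U.erase T) (S.filter (m < ·)), F (Function.update p T m) := by
  refine sum_nbij' (fun p => Function.update p T 0) (fun p => Function.update p T m)
    ?_ ?_ ?_ ?_ ?_
  · intro p hp
    simp only [inj, mem_filter, mem_funs] at hp ⊢
    obtain ⟨⟨⟨h1, h2⟩, hi⟩, hpm, hlt⟩ := hp
    refine ⟨⟨fun R hR => ?_, fun R hR => ?_⟩, fun R hR R' hR' h => ?_⟩
    · obtain ⟨hne, hR⟩ := mem_erase.1 hR
      rw [Function.update_of_ne hne, ← hpm]
      exact ⟨h1 R hR, hlt R hR hne⟩
    · by_cases hne : R = T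
      · simp [hne]
      · rw [Function.update_of_ne hne]
        exact h2 R fun h => hR (mem_erase.2 ⟨hne, h⟩)
    · obtain ⟨a, hR⟩ := mem_erase.1 hR
      obtain ⟨b, hR'⟩ := mem_erase.1 hR'
      rw [Function.update_of_ne a, Function.update_of_ne b] at h
      exact hi R hR R' hR' h
  · intro p hp
    simp only [inj, mem_filter, mem_funs] at hp ⊢
    obtain ⟨⟨h1, h2⟩, hi⟩ := hp
    have hlt : ∀ R ∈ U, R ≠ T → m < Function.update p T m R := fun R hR hne => by
      rw [Function.update_of_ne hne]; exact (h1 R (mem_erase.2 ⟨hne, hR⟩)).2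
    refine ⟨⟨⟨fun R hR => ?_, fun R hR => ?_⟩, fun R hR R' hR' h => ?_⟩,
      Function.update_self .., fun R hR hne => ?_⟩
    · by_cases hne : R = T
      · simp [hne, hm]
      · rw [Function.update_of_ne hne]; exact (h1 R (mem_erase.2 ⟨hne, hR⟩)).1
    · have hne : R ≠ T := fun h => hR (h ▸ hT)
      rw [Function.update_of_ne hne]
      exact h2 R fun h => hR (mem_erase.1 h).2
    · by_cases a : R = T <;> by_cases b : R' = T
      · rw [a, b]
      · have := hlt R' hR' b
        rw [← h, a, Function.update_self] at this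
        omega
      · have := hlt R hR a
        rw [h, b, Function.update_self] at this
        omega
      · rw [Function.update_of_ne a, Function.update_of_ne b] at h
        exact hi R (mem_erase.2 ⟨a, hR⟩) R' (mem_erase.2 ⟨b, hR'⟩) h
    · rw [Function.update_self]; exact hlt R hR hne
  · intro p hp
    simp only [inj, mem_filter, mem_funs] at hp
    simp [← hp.2.1]
  · intro p hp
    simp only [inj, mem_filter, mem_funs] at hp
    simp [← hp.1.2 T (notMem_erase _ _)]
  · intro p hp
    simp only [inj, mem_filter, mem_funs] at hp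
    simp [← hp.2.1]

lemma inj_decomp {U : Finset ↥E} (hU : U.Nonempty) (S : Finset ℕ) (F : (↥E → ℕ) → ℝ) :
    ∑ p ∈ inj U S, F p = ∑ T ∈ U, ∑ m ∈ S,
      ∑ p ∈ inj (U.erase T) (S.filter (m < ·)), F (Function.update p T m) := by
  have key : ∀ T ∈ U, (∑ m ∈ S,
      ∑ p ∈ inj (U.erase T) (S.filter (m < ·)), F (Function.update p T m))
      = ∑ p ∈ inj U S, if ∀ R ∈ U, R ≠ T → p T < p R then F p else 0 := by
    intro T hT
    rw [← sum_filter, ← sum_fiberwise_of_maps_to
      (s := (inj U S).filter fun p => ∀ R ∈ U, R ≠ T → p T < p R) (g := fun p => p T) (t := S)]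
    · refine sum_congr rfl fun m hm => ?_
      rw [← inj_fiber U S hT hm, filter_filter]
      refine sum_congr (filter_congr fun p _ => by tauto) fun _ _ => rfl
    · intro p hp
      exact (mem_funs.1 (mem_filter.1 (mem_filter.1 hp).1).1).1 T hT
  rw [sum_congr rfl key, sum_comm]
  refine sum_congr rfl fun p hp => ?_
  obtain ⟨-, hi⟩ := mem_filter.1 hp
  obtain ⟨T, hT, hmin⟩ := exists_min_image U p hU
  rw [sum_eq_single_of_mem T hT, if_pos]
  · exact fun R hR hne => lt_of_le_of_ne (hmin R hR) fun h => hne (hi R hR T hT h.symm)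
  · intro R hR hne
    rw [if_neg]
    intro h
    exact absurd (hmin R hR) (not_le.2 (h T hT hne.symm))

/-- The hyperedges of `U` inside `W`. -/
def use (W : Finset α) (U : Finset ↥E) : Finset (Finset α) :=
  (U.image Subtype.val).filter (· ⊆ W)

/-- The points left by priority greedy on the hyperedges of `U` inside `W`. -/
def res (M : ℕ) (W : Finset α) (U : Finset ↥E) (p : ↥E → ℕ) : Finset α :=
  W.filter fun e => exact' (use W U) (ext E M p) e M = true

lemma use_next (hne : ∀ R ∈ E, R.Nonempty) (W : Finset α) (U : Finset ↥E) (T : ↥E) :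
    use (W \ (T : Finset α)) (U.erase T) = nextE (use W U) T := by
  ext R
  simp only [use, nextE, mem_filter, mem_image, mem_erase, subset_sdiff]
  constructor
  · rintro ⟨⟨R, ⟨-, hR⟩, rfl⟩, hW, hd⟩
    exact ⟨⟨⟨R, hR, rfl⟩, hW⟩, hd.symm⟩
  · rintro ⟨⟨⟨R, hR, rfl⟩, hW⟩, hd⟩
    refine ⟨⟨R, ⟨?_, hR⟩, rfl⟩, hW, hd.symm⟩
    rintro rfl
    obtain ⟨x, hx⟩ := hne R.1 R.2
    exact disjoint_left.1 hd hx hx

lemma use_skip {W : Finset α} {T : ↥E} (hTW : ¬ (T : Finset α) ⊆ W) (U : Finset ↥E) :
    use W (U.erase T) = use W U := by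
  rw [use, use, image_erase Subtype.val_injective, filter_erase, erase_eq_of_notMem]
  exact fun h => hTW (mem_filter.1 h).2

lemma res_update (hne : ∀ R ∈ E, R.Nonempty) (W : Finset α) {U : Finset ↥E} {T : ↥E}
    (hT : T ∈ U) {p : ↥E → ℕ} {m : ℕ} (hm : m < M) (hp : ∀ R ∈ U, R ≠ T → m < p R) :
    res M W U (Function.update p T m) =
      if (T : Finset α) ⊆ W then res M (W \ (T : Finset α)) (U.erase T) p
      else res M W (U.erase T) p := by
  have agree : ∀ R ∈ (U.erase T).image Subtype.val,
      ext E M (Function.update p T m) R = ext E M p R := by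
    intro R hR
    obtain ⟨X, hX, rfl⟩ := mem_image.1 hR
    rw [ext_coe, ext_coe, Function.update_of_ne (mem_erase.1 hX).1]
  split_ifs with hTW
  · have hTu : (T : Finset α) ∈ use W U := mem_filter.2 ⟨mem_image_of_mem _ hT, hTW⟩
    have hmin : ∀ R ∈ use W U, R ≠ (T : Finset α) →
        ext E M (Function.update p T m) (T : Finset α) < ext E M (Function.update p T m) R := by
      intro R hR hRT
      obtain ⟨R, hRU, rfl⟩ := mem_image.1 (mem_filter.1 hR).1
      have : R ≠ T := fun h => hRT (h ▸ rfl)
      rw [ext_coe, ext_coe, Function.update_self, Function.update_of_ne this]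
      exact hp R hRU this
    ext e
    simp only [res, mem_filter, mem_sdiff]
    by_cases he : e ∈ (T : Finset α)
    · rw [exact'_min_dead hTu hmin he (by rwa [ext_coe, Function.update_self])]
      simp [he]
    · rw [exact'_min_next hTu hmin M e he, ← use_next hne,
        exact'_congr (E := use _ (U.erase T)) (w := ext E M (Function.update p T m)) (w' := ext E M p)
          (fun R hR => agree R (mem_filter.1 hR).1)]
      simp [he]
  · rw [res, res, ← use_skip hTW]
    refine filter_congr fun e _ => ?_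
    rw [exact'_congr (E := use _ (U.erase T)) (w := ext E M (Function.update p T m)) (w' := ext E M p)
          (fun R hR => agree R (mem_filter.1 hR).1)]

/-- Over injective priorities, priority greedy is exactly random greedy. -/
lemma inj_sum (hne : ∀ R ∈ E, R.Nonempty) (φ : Finset α → ℝ) (q : ℕ) :
    ∃ N : Finset ℕ → ℝ, ∀ U : Finset ↥E, U.card = q → ∀ S : Finset ℕ, (∀ m ∈ S, m < M) →
      ((inj U S).card : ℝ) = N S ∧ ∀ W : Finset α,
        ∑ p ∈ inj U S, φ (res M W U p) = N S * val φ W (use W U) := by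
  induction q with
  | zero =>
    refine ⟨fun _ => 1, fun U hU S _ => ?_⟩
    obtain rfl := card_eq_zero.1 hU
    have : inj (∅ : Finset ↥E) S = {fun _ => 0} := by
      ext p
      simp [inj, mem_funs, funext_iff]
    refine ⟨by simp [this], fun W => ?_⟩
    have hu : use W (∅ : Finset ↥E) = ∅ := by simp [use]
    rw [this, sum_singleton, one_mul, res, hu, val, expEnd_zero]
    congr 1
    refine filter_true_of_mem fun e _ => exact'_iff.2 ?_
    simp
  | succ q ih =>
    obtain ⟨N, hN⟩ := ih
    refine ⟨fun S => (q + 1 : ℕ) * ∑ m ∈ S, N (S.filter (m < ·)), fun U hU S hS => ?_⟩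
    have hne' : U.Nonempty := card_pos.1 (by omega)
    have hsub : ∀ T ∈ U, ∀ m, (U.erase T).card = q ∧ ∀ x ∈ S.filter (m < ·), x < M :=
      fun T hT m => ⟨by rw [card_erase_of_mem hT, hU]; rfl,
        fun x hx => hS x (mem_filter.1 hx).1⟩
    constructor
    · calc ((inj U S).card : ℝ) = ∑ p ∈ inj U S, (1 : ℝ) := by simp
        _ = ∑ T ∈ U, ∑ m ∈ S, N (S.filter (m < ·)) := by
          rw [inj_decomp hne']
          refine sum_congr rfl fun T hT => sum_congr rfl fun m _ => ?_
          rw [← (hN _ (hsub T hT m).1 _ (hsub T hT m).2).1]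
          simp
        _ = _ := by rw [sum_const, hU, nsmul_eq_mul]
    · intro W
      let Y : ↥E → ℝ := fun T => if (T : Finset α) ⊆ W
        then val φ (W \ (T : Finset α)) (nextE (use W U) T) else val φ W (use W U)
      have hY : ∀ T ∈ U, ∀ m ∈ S,
          ∑ p ∈ inj (U.erase T) (S.filter (m < ·)), φ (res M W U (Function.update p T m))
            = N (S.filter (m < ·)) * Y T := by
        intro T hT m hm
        have hlt : ∀ p ∈ inj (U.erase T) (S.filter (m < ·)), ∀ R ∈ U, R ≠ T → m < p R :=
          fun p hp R hR h => (mem_filter.1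
            ((mem_funs.1 (mem_filter.1 hp).1).1 R (mem_erase.2 ⟨h, hR⟩))).2
        have hIH := (hN _ (hsub T hT m).1 _ (hsub T hT m).2).2
        simp only [Y]
        split_ifs with hTW
        · rw [sum_congr rfl fun p hp => by
            rw [res_update hne W hT (hS m hm) (hlt p hp), if_pos hTW], hIH, use_next hne]
        · rw [sum_congr rfl fun p hp => by
            rw [res_update hne W hT (hS m hm) (hlt p hp), if_neg hTW], hIH, use_skip hTW]
      have hsum : ∑ T ∈ U, Y T = (q + 1 : ℕ) * val φ W (use W U) := by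
        have h1 : ∑ T ∈ U.filter (fun T : ↥E => (T : Finset α) ⊆ W),
            val φ (W \ (T : Finset α)) (nextE (use W U) T)
              = (use W U).card * val φ W (use W U) := by
          have hnu : ∀ R ∈ use W U, R.Nonempty := by
            intro R hR
            obtain ⟨R, -, rfl⟩ := mem_image.1 (mem_filter.1 hR).1
            exact hne R.1 R.2
          rw [← val_step φ W hnu]
          conv_rhs => arg 1; rw [use, filter_image]
          rw [sum_image fun _ _ _ _ h => Subtype.val_injective h]
        have h2 : (use W U).card = (U.filter fun T : ↥E => (T : Finset α) ⊆ W).card := by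
          rw [use, filter_image, card_image_of_injective _ Subtype.val_injective]
        have h3 := card_filter_add_card_filter_not (s := U) fun T : ↥E => (T : Finset α) ⊆ W
        simp only [Y]
        rw [sum_ite, h1, sum_const, nsmul_eq_mul, ← add_mul, ← Nat.cast_add, h2, h3, hU]
      calc ∑ p ∈ inj U S, φ (res M W U p)
          = ∑ T ∈ U, ∑ m ∈ S, N (S.filter (m < ·)) * Y T := by
            rw [inj_decomp hne']
            exact sum_congr rfl fun T hT => sum_congr rfl fun m hm => hY T hT m hm
        _ = (∑ m ∈ S, N (S.filter (m < ·))) * ∑ T ∈ U, Y T := by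
            rw [sum_comm, sum_mul]
            exact sum_congr rfl fun m _ => by rw [mul_sum]
        _ = _ := by rw [hsum]; ring

/-- Few assignments have ties. -/
lemma tie_card (hM : 0 < M) :
    ((funs (univ : Finset ↥E) (range M) \ inj univ (range M)).card : ℝ)
      ≤ (E.card : ℝ) ^ 2 / M * (M : ℝ) ^ E.card := by
  let P := funs (univ : Finset ↥E) (range M)
  let Q : ↥E × ↥E → Finset (↥E → ℕ) := fun rt => P.filter fun p => p rt.1 = p rt.2
  have hsub : P \ inj univ (range M) ⊆ (univ : Finset ↥E).offDiag.biUnion Q := by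
    intro p hp
    obtain ⟨hP, hI⟩ := mem_sdiff.1 hp
    have : ¬ ∀ R ∈ (univ : Finset ↥E), ∀ T ∈ (univ : Finset ↥E), p R = p T → R = T :=
      fun h => hI (mem_filter.2 ⟨hP, h⟩)
    push Not at this
    obtain ⟨R, hR, T, hT, he, hne⟩ := this
    exact mem_biUnion.2 ⟨(R, T), mem_offDiag.2 ⟨hR, hT, hne⟩, mem_filter.2 ⟨hP, he⟩⟩
  have hcard : ∀ rt ∈ (univ : Finset ↥E).offDiag, (Q rt).card * M ≤ M ^ E.card := by
    rintro ⟨R, T⟩ h
    obtain ⟨-, -, hne⟩ := mem_offDiag.1 h
    have hle : (Q (R, T)).card ≤
        (Fintype.piFinset fun X : ↥E => if X = T then ({0} : Finset ℕ) else range M).card := by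
      refine card_le_card_of_injOn (fun p => Function.update p T 0) ?_ ?_
      · intro p hp
        have hp := (mem_funs.1 (mem_filter.1 (mem_coe.1 hp)).1).1
        rw [mem_coe, Fintype.mem_piFinset]
        intro X
        by_cases hX : X = T
        · simp [hX]
        · simpa [hX] using hp X (mem_univ _)
      · intro p hp p' hp' he
        funext X
        have hR := congrFun he R
        have hX := congrFun he X
        simp only [Function.update_of_ne hne] at hR
        by_cases h : X = T
        · subst h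
          rw [← (mem_filter.1 (mem_coe.1 hp)).2, ← (mem_filter.1 (mem_coe.1 hp')).2]
          exact hR
        · simpa [Function.update_of_ne h] using hX
    refine (Nat.mul_le_mul_right M hle).trans (le_of_eq ?_)
    rw [Fintype.card_piFinset, ← mul_prod_erase univ _ (mem_univ T), if_pos rfl, card_singleton,
      one_mul, prod_congr rfl fun X hX => by rw [if_neg (mem_erase.1 hX).1, card_range],
      prod_const, ← pow_succ, card_erase_of_mem (mem_univ T), card_univ, Fintype.card_coe]
    congr 1
    have : 0 < E.card := card_pos.2 ⟨T.1, T.2⟩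
    omega
  have h : (P \ inj univ (range M)).card * M ≤ E.card ^ 2 * M ^ E.card := by
    refine (Nat.mul_le_mul_right M ((card_le_card hsub).trans card_biUnion_le)).trans ?_
    rw [sum_mul]
    refine (sum_le_sum hcard).trans ?_
    rw [sum_const, smul_eq_mul]
    refine Nat.mul_le_mul_right _ ?_
    rw [offDiag_card, card_univ, Fintype.card_coe, sq]
    omega
  rw [div_mul_eq_mul_div, le_div_iff₀ (by exact_mod_cast hM)]
  exact_mod_cast h

/-- The interface goal. -/
theorem goalOrders : GoalOrders := by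
  intro α _ V E M φ B hlin hM hφ
  refine ⟨?_, fun w j e => sandwich E w j e M⟩
  let P := funs (univ : Finset ↥E) (range M)
  let I := inj (univ : Finset ↥E) (range M)
  have hne : ∀ R ∈ E, R.Nonempty := fun R hR => card_pos.1 (by rw [hlin.three R hR]; omega)
  have huse : use V (univ : Finset ↥E) = E := by
    ext R
    simp only [use, mem_filter, mem_image, mem_univ, true_and]
    exact ⟨fun ⟨⟨R, h⟩, _⟩ => h ▸ R.2, fun h => ⟨⟨⟨R, h⟩, rfl⟩, hlin.sub R h⟩⟩
  have hres : ∀ p : ↥E → ℕ, res M V univ p =
      V.filter fun e => aliveIt E (ext E M p) true M e M = true := by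
    intro p; rw [res, huse]; rfl
  have havg : avgOrders E M (fun w => φ (V.filter fun e => aliveIt E w true M e M = true))
      = (∑ p ∈ P, φ (res M V univ p)) / (M : ℝ) ^ E.card := by
    simp only [hres]
    rw [avgOrders]
    congr 1
    refine sum_nbij' (fun p R => p R.1 R.2) (fun p R h => p ⟨R, h⟩) ?_ ?_ ?_ ?_ ?_
    · intro p hp
      refine mem_funs.2 ⟨fun R _ => mem_pi.1 hp R.1 R.2, fun R hR => absurd (mem_univ R) hR⟩
    · intro p hp
      exact mem_pi.2 fun R h => (mem_funs.1 hp).1 ⟨R, h⟩ (mem_univ _)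
    · intro p _; rfl
    · intro p _; rfl
    · intro p _; rfl
  obtain ⟨N, hN⟩ := inj_sum (M := M) hne φ (univ : Finset ↥E).card
  obtain ⟨hc, hs⟩ := hN univ rfl (range M) fun m hm => mem_range.1 hm
  have hI : ∑ p ∈ I, φ (res M V univ p) = I.card * expEnd φ E.card V E := by
    rw [hs V, hc, huse]; rfl
  have hB : 0 ≤ B := le_trans (abs_nonneg _) (hφ V subset_rfl)
  have hX := expEnd_abs_le hφ E.card V E subset_rfl
  have hPc : P.card = M ^ E.card := by simp [P, funs]
  have hMk : (0:ℝ) < (M : ℝ) ^ E.card := by positivity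
  have hIP : I ⊆ P := filter_subset _ _
  have hdiff : (∑ p ∈ P, φ (res M V univ p)) - (M : ℝ) ^ E.card * expEnd φ E.card V E
      = ∑ p ∈ P \ I, (φ (res M V univ p) - expEnd φ E.card V E) := by
    rw [← sum_sdiff hIP, hI, sum_sub_distrib, sum_const, nsmul_eq_mul, ← Nat.cast_pow, ← hPc,
      ← card_sdiff_add_card_eq_card hIP, Nat.cast_add]
    ring
  rw [havg, abs_sub_comm, div_sub' hMk.ne', hdiff, abs_div, abs_of_pos hMk,
    div_le_iff₀ hMk]
  refine (abs_sum_le_sum_abs _ _).trans ?_
  refine (sum_le_sum fun p _ => (abs_sub _ _).trans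
    (add_le_add (hφ _ (filter_subset _ _)) hX)).trans ?_
  rw [sum_const, nsmul_eq_mul]
  calc ((P \ I).card : ℝ) * (B + B) ≤ ((E.card : ℝ) ^ 2 / M * (M : ℝ) ^ E.card) * (B + B) :=
        mul_le_mul_of_nonneg_right (tie_card hM) (by linarith)
    _ = _ := by ring

end

end Vale.Agent.P046.Full.Orders
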